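import Crest.Agent.X326.Top.Par
import Crest.Agent.X326.FB.Defs
import Crest.Agent.X326.Top.ParPT
import Crest.Agent.X326.TC.Un
import Crest.Agent.X326.M4.Defs
import Crest.Agent.X326.FB.PolyDefs
import Crest.Agent.Lib.PT.ArithInt
import Crest.Agent.Lib.PT.ListFns2
import Crest.Agent.X326.FB.Interp
import Crest.Agent.X326.FB.MajDefs
import Crest.Agent.X326.FB.TapsDefs
import Crest.Agent.X326.FB.PolyAllDefs
import Crest.Agent.X326.FB.Tab
import Crest.Agent.X326.TC.NatLin
import Crest.Agent.X326.TC.Map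
import Crest.Agent.X326.TC.ListLin
import Crest.Agent.X326.TC.Deal

-- ▼ part X326/Top/ParFB
section

/-!
# Side conditions of the filter bank and of the modulus for the chosen parameters (row 326)
-/

set_option autoImplicit false

namespace Crest.Agent.X326.Par

open Filter

theorem so_size_dl : SO (fun L => Nat.size (dl L)) (31 / 32) :=
  SO.size_mul (((so_nn.const_mul 2).add_const (by norm_num) 1).size.mono (by norm_num)) so_size_tt

theorem so_size_const (c : ℕ) : SO (fun _ => Nat.size c) (31 / 32) :=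
  (SO.const _).mono (by norm_num)

theorem so_size_cc : SO (fun L => Nat.size (cc L)) (31 / 32) := by
  have h4 : SO (fun L => Nat.size (4 ^ kk L)) (31 / 32) := by
    refine SO.size_of_le_two_pow (g := fun L => 2 * kk L) (Eventually.of_forall fun L => ?_)
      (so_kk.const_mul 2) (by norm_num)
    rw [pow_mul]
    exact le_rfl
  refine SO.size_add (SO.size_add ((so_kk.size.mono (by norm_num)).size_mul h4)
    (SO.size_mul ?_ ?_) (by norm_num)) (so_size_const 1) (by norm_num)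
  · exact SO.size_add ((so_size_const 2).size_mul so_size_dl) (so_size_const 1) (by norm_num)
  · exact SO.size_add ((so_size_const 2).size_mul so_size_tt) (so_size_const 1) (by norm_num)

theorem ev_gain_le : ∀ᶠ L in atTop, FB.gain (tt L) (dl L) ≤ tt L ^ 3 := by
  filter_upwards [((((so_nn.const_mul 2).add_const (by norm_num) 1).const_mul 4).add_const
    (by norm_num) 1).le_tt] with L h
  have ht := tt_pos L
  unfold FB.gain dl
  have h1 : 4 * ((2 * nn L + 1) * tt L) + 1 ≤ (4 * (2 * nn L + 1) + 1) * tt L := by nlinarith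
  calc (4 * ((2 * nn L + 1) * tt L) + 1) * tt L ≤ ((4 * (2 * nn L + 1) + 1) * tt L) * tt L :=
        Nat.mul_le_mul_right _ h1
    _ ≤ (tt L * tt L) * tt L := Nat.mul_le_mul_right _ (Nat.mul_le_mul_right _ h)
    _ = _ := by ring

/-- `gain ^ i ≤ 2 ^ (3 c L)` for `i ≤ c * dd` -/
theorem ev_gain_pow_le : ∀ᶠ L in atTop, ∀ c i, i ≤ c * dd L →
    FB.gain (tt L) (dl L) ^ i ≤ 2 ^ (3 * c * L) := by
  filter_upwards [ev_gain_le, ev_tt_pow_le] with L h1 h2 c i hi
  calc FB.gain (tt L) (dl L) ^ i ≤ (tt L ^ 3) ^ i := Nat.pow_le_pow_left h1 _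
    _ ≤ (tt L ^ 3) ^ (c * dd L) := Nat.pow_le_pow_right (pow_pos (tt_pos L) _) hi
    _ = (tt L ^ dd L) ^ (3 * c) := by rw [← pow_mul, ← pow_mul]; congr 1; ring
    _ ≤ (2 ^ L) ^ (3 * c) := Nat.pow_le_pow_left h2 _
    _ = _ := by rw [← pow_mul]; congr 1; ring

theorem ev_AA_le : ∀ᶠ L in atTop, AA L ≤ 2 ^ (2 * L) := by
  filter_upwards [ev_NN_mul_rr_le] with L h
  unfold AA
  rw [two_mul, pow_add]
  exact Nat.mul_le_mul_right _ h

/-- the precision condition of `FB.MainStatement` -/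
theorem ev_precision : ∀ᶠ L in atTop,
    16 * (ee L + 1) * (cc L + 1) * FB.gain (tt L) (dl L) ^ (3 * ee L + 3) *
      (tt L ^ (ee L + 2) * rr L) ^ 2 * (AA L + 1) ^ 2 ≤ 2 ^ pp L := by
  have h0 : ∀ᶠ L in atTop, 16 * (ee L + 1) * (cc L + 1) ≤ 2 ^ L := by
    refine SO.le_two_pow_of_size (a := 31 / 32) (SO.size_mul ?_ ?_) (by norm_num)
    · exact ((so_ee.add_const (by norm_num) 1).const_mul 16).size.mono (by norm_num)
    · exact SO.size_add so_size_cc (so_size_const 1) (by norm_num)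
  filter_upwards [h0, ev_gain_pow_le, ev_grid_le, ev_AA_le, eventually_ge_atTop 1]
    with L h1 h2 h3 h4 hL
  have h5 := h2 3 (3 * ee L + 3) (by rw [dd_eq]; omega)
  have h6 : (tt L ^ (ee L + 2) * rr L) ^ 2 ≤ (2 ^ L) ^ 2 := Nat.pow_le_pow_left h3 2
  have h7 : AA L + 1 ≤ 2 ^ (3 * L) := by
    have : 2 ^ (2 * L) < 2 ^ (3 * L) := Nat.pow_lt_pow_right (by norm_num) (by omega)
    omega
  have h8 : (AA L + 1) ^ 2 ≤ (2 ^ (3 * L)) ^ 2 := Nat.pow_le_pow_left h7 2
  calc _ ≤ 2 ^ L * 2 ^ (3 * 3 * L) * (2 ^ L) ^ 2 * (2 ^ (3 * L)) ^ 2 :=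
        Nat.mul_le_mul (Nat.mul_le_mul (Nat.mul_le_mul h1 h5) h6) h8
    _ = 2 ^ (18 * L) := by rw [← pow_mul, ← pow_mul, ← pow_add, ← pow_add, ← pow_add]; congr 1; ring
    _ ≤ _ := Nat.pow_le_pow_right (by norm_num) (by unfold pp; omega)

/-- bound for the `ℓ¹` norm of the prepared arrays -/
theorem ev_prep_le : ∀ᶠ L in atTop,
    2 ^ pp L * FB.gain (tt L) (dl L) ^ (ee L + 1) * AA L + tt L ^ (ee L + 2) * rr L
      ≤ 2 ^ (38 * L) := by
  filter_upwards [ev_gain_pow_le, ev_grid_le, ev_AA_le, eventually_ge_atTop 1] with L h2 h3 h4 hL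
  have h5 := h2 1 (ee L + 1) (by rw [dd_eq]; omega)
  have h6 : 2 ^ pp L * FB.gain (tt L) (dl L) ^ (ee L + 1) * AA L ≤ 2 ^ (37 * L) := by
    calc _ ≤ 2 ^ pp L * 2 ^ (3 * 1 * L) * 2 ^ (2 * L) :=
          Nat.mul_le_mul (Nat.mul_le_mul_left _ h5) h4
      _ = _ := by rw [← pow_add, ← pow_add]; congr 1; unfold pp; ring
  have h7 : 2 ^ L ≤ 2 ^ (37 * L) := Nat.pow_le_pow_right (by norm_num) (by omega)
  have h8 : 2 ^ (37 * L + 1) ≤ 2 ^ (38 * L) := Nat.pow_le_pow_right (by norm_num) (by omega)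
  rw [pow_succ] at h8
  rw [← dd_eq]
  omega

/-- the grid convolution of the prepared arrays is below half of the modulus `2 ^ PP - 1` -/
theorem ev_modulus : ∀ᶠ L in atTop,
    2 * (2 ^ pp L * FB.gain (tt L) (dl L) ^ (ee L + 1) * AA L + tt L ^ (ee L + 2) * rr L) ^ 2 + 2
      ≤ 2 ^ PP L - 1 := by
  filter_upwards [ev_prep_le, eventually_ge_atTop 1] with L h hL
  have h1 := Nat.pow_le_pow_left h 2
  rw [← pow_mul] at h1
  have h2 : 2 ^ (38 * L * 2 + 3) ≤ 2 ^ PP L := Nat.pow_le_pow_right (by norm_num)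
    (by unfold PP; omega)
  have h3 : 0 < 2 ^ (38 * L * 2) := by positivity
  rw [pow_add] at h2
  omega


/-- the hypothesis of the taps statement, with `Q2 = QQ / 2` -/
theorem ev_taps_hyp : ∀ᶠ L in atTop, 1 ≤ kk L ∧ 2 ≤ nu L ∧ 0 < QQ L / 2 ∧
    2 * (QQ L / 2) * nu L ≤ 2 ^ kk L * (nu L - 1) ∧ 2 * (QQ L / 2) = QQ L := by
  filter_upwards [ev_kk_ge 1, ev_two_mul_half_QQ, ev_QQ_pos, ev_QQ_mul_nu] with L h1 h2 h3 h4
  have := four_le_nu L
  refine ⟨h1, by omega, by omega, ?_, h2⟩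
  rw [h2, h4]; rfl

/-! ### side conditions of the exact convolution -/


theorem ev_Lp_le_PP : ∀ᶠ L in atTop, Lp L ≤ PP L := by
  filter_upwards [eventually_ge_atTop 8] with L h
  have := Lp_le h
  unfold PP; omega

theorem ev_rho_le_PP : ∀ᶠ L in atTop, rho L ≤ PP L := by
  filter_upwards [ev_Lp_le_PP] with L h
  have := dd_mul_kk_add_rho L
  omega

theorem ev_kk_mul_dd_le_PP : ∀ᶠ L in atTop, kk L * dd L ≤ PP L := by
  filter_upwards [ev_Lp_le_PP] with L h
  have := dd_mul_kk_add_rho L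
  rw [mul_comm]; omega

theorem ev_PP_le : ∀ᶠ L in atTop, PP L ≤ (rho L + 1) ^ 4 :=
  so_PP.eventually_le_lb ((lb_rho.add_right fun _ => 1).pow 4) (by norm_num)


theorem ev_PP_ge (c : ℕ) : ∀ᶠ L in atTop, c ≤ PP L := lb_PP.eventually_ge one_pos c


/-- anything of exponent below `31/32` is eventually below the number of bits per axis -/
theorem _root_.Crest.Agent.X326.SO.le_kk {f : ℕ → ℕ} {a : ℝ} (hf : SO f a) (ha : a < 31 / 32) :
    ∀ᶠ L in atTop, f L ≤ kk L := hf.eventually_le_lb lb_kk ha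

theorem ev_jj_ge (c : ℕ) : ∀ᶠ L in atTop, c ≤ jj L := by
  filter_upwards [eventually_ge_atTop (2 ^ (c * 576))] with L h
  unfold jj
  rw [Nat.le_div_iff_mul_le (by norm_num)]
  have : 0 < 2 ^ (c * 576) := by positivity
  exact (Nat.le_log_iff_pow_le (by norm_num) (by omega)).2 h



end Crest.Agent.X326.Par
end

-- ▼ part X326/Top/BudSV
section

/-!
# One budget for the whole top level (row 326)

`Tb L = 2 ^ L * pw (1 - 2^(-100)) L`.  Every cost `g L` with `SV g a`, `a < 1 - 2^(-100)`, is within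
the budget `Tb` on *every* domain (no threshold needed).  The parameters are computable within it.
-/

set_option autoImplicit false

namespace Crest.Agent.X326

open Filter Crest.Agent.Lib.PT

/-- the exponent of the budget -/
noncomputable def aT : ℝ := 1 - 1 / (2 : ℝ) ^ 100

theorem aT_lt : aT < 1 - 1 / (2 : ℝ) ^ 182 := by unfold aT; norm_num

theorem aT_pos : 0 < aT := by unfold aT; norm_num

theorem lt_aT {a : ℝ} (h : a ≤ 1 - 1 / (2 : ℝ) ^ 99) : a < aT := by
  refine h.trans_lt ?_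
  unfold aT; norm_num

/-- the budget of the top level -/
noncomputable def Tb (L : ℕ) : ℕ := 2 ^ L * pw aT L

theorem sv_Tb : SV Tb aT :=
  (SV.two_pow.mul_so (SO.id.pw zero_le_one aT_pos.le)).mono (by simp)

theorem SV.le_Tb {g : ℕ → ℕ} {a : ℝ} (hg : SV g a) (ha : a < aT) :
    ∃ C : ℕ, ∀ L, g L ≤ C * Tb L + C := by
  obtain ⟨F, hF, h⟩ := hg
  obtain ⟨C, hC⟩ := hF.bound ha
  refine global_of_eventually (c := C) ?_
  filter_upwards [h, hC] with L h1 h2
  have h3 : (F L : ℝ) ≤ (C * pw aT L : ℕ) := by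
    push_cast
    exact h2.trans (mul_le_mul_of_nonneg_left (le_pw _ _) (Nat.cast_nonneg _))
  have h4 : F L ≤ C * pw aT L := by exact_mod_cast h3
  calc g L ≤ 2 ^ L * F L := h1
    _ ≤ 2 ^ L * (C * pw aT L) := Nat.mul_le_mul_left _ h4
    _ = C * Tb L := by unfold Tb; ring

section bud

variable {α : Type} [PTCode α] {P : Dom α} {L : α → ℕ}

/-- a cost of exponent below `aT` is within the budget `Tb`, on every domain -/
theorem SV.bud {g : ℕ → ℕ} {a : ℝ} (hg : SV g a) (ha : a < aT) :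
    Bud P (fun x => Tb (L x)) (fun x => g (L x)) := by
  obtain ⟨C, hC⟩ := hg.le_Tb ha
  exact Bud.of_le C 0 C fun x _ => by simpa using hC (L x)

theorem SV.bud0 {g : ℕ → ℕ} (hg : SV g 0) : Bud P (fun x => Tb (L x)) (fun x => g (L x)) :=
  hg.bud aT_pos


/-- quantities with `o(L)` bits are small -/
theorem SO.small_of_size {s : ℕ → ℕ} {a : ℝ} (hs : SO (fun L => Nat.size (s L)) a) (ha : a < 1) :
    Small P (fun x => Tb (L x)) (fun x => s (L x)) := by
  intro k
  have ha0 : SO (fun L => Nat.size (s L)) (Max.max a 0) := hs.mono (le_max_left _ _)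
  have h0 : (0 : ℝ) ≤ Max.max a 0 := le_max_right _ _
  refine SV.bud0 (g := fun L => (s L + 1) ^ k) (SV.of_le_two_pow ?_)
  exact SO.le_two_pow_of_size (SO.size_pow (SO.size_add ha0 ((SO.const 1).size.mono h0) h0) h0 k)
    (max_lt ha one_pos)

/-- polynomial quantities are small -/
theorem SO.small {s : ℕ → ℕ} {a : ℝ} (hs : SO s a) :
    Small P (fun x => Tb (L x)) (fun x => s (L x)) := hs.size.small_of_size one_pos

theorem small_L : Small P (fun x => Tb (L x)) L := SO.id.small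

/-- a polynomial-time function of `L` (given in unary) is within the budget -/
theorem tc_of_ptf_L {β : Type} [PTCode β] {g : Un → β} (hg : PTF g)
    (hL : TU P (fun x => Tb (L x)) L) : TC P (fun x => Tb (L x)) (fun x => g ⟨L x⟩) :=
  TC.ptf hg hL (small_L.mono fun x _ => by simp)

theorem tu_of_ptu_L {g : ℕ → ℕ} (hg : PTU fun u : Un => g u.val)
    (hL : TU P (fun x => Tb (L x)) L) : TU P (fun x => Tb (L x)) (fun x => g (L x)) :=
  tc_of_ptf_L (g := fun u : Un => Un.mk (g u.val)) hg hL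

theorem tc_nat_of_ptf_L {g : ℕ → ℕ} (hg : PTF fun u : Un => g u.val)
    (hL : TU P (fun x => Tb (L x)) L) : TC P (fun x => Tb (L x)) (fun x => g (L x)) :=
  tc_of_ptf_L (g := fun u : Un => g u.val) hg hL

end bud

namespace Par

theorem ptu_val : PTU fun u : Un => u.val := PTU.val PTF.id

/-! ### sizes of the large parameters -/

theorem sv_tt : SV tt 0 :=
  SV.of_le_two_pow (SO.le_two_pow_of_size so_size_tt (by norm_num))

theorem sv_rr : SV rr 0 :=
  SV.of_le_two_pow (SO.le_two_pow_of_size so_size_rr (by norm_num))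








section tc

variable {α : Type} [PTCode α] {P : Dom α} {L : α → ℕ} (hL : TU P (fun x => Tb (L x)) L)
include hL

theorem tu_dd : TU P (fun x => Tb (L x)) (fun x => dd (L x)) := tu_of_ptu_L (ptu_dd ptu_val) hL
theorem tu_ee : TU P (fun x => Tb (L x)) (fun x => ee (L x)) := tu_of_ptu_L (ptu_ee ptu_val) hL
theorem tu_kk : TU P (fun x => Tb (L x)) (fun x => kk (L x)) := tu_of_ptu_L (ptu_kk ptu_val) hL
theorem tu_rho : TU P (fun x => Tb (L x)) (fun x => rho (L x)) := tu_of_ptu_L (ptu_rho ptu_val) hL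
theorem tu_nu : TU P (fun x => Tb (L x)) (fun x => nu (L x)) := tu_of_ptu_L (ptu_nu ptu_val) hL
theorem tu_pp : TU P (fun x => Tb (L x)) (fun x => pp (L x)) := tu_of_ptu_L (ptu_pp ptu_val) hL
theorem tu_PP : TU P (fun x => Tb (L x)) (fun x => PP (L x)) := tu_of_ptu_L (ptu_PP ptu_val) hL
theorem tu_beta : TU P (fun x => Tb (L x)) (fun x => beta (L x)) :=
  tu_of_ptu_L (ptu_beta ptu_val) hL

theorem tc_tt : TC P (fun x => Tb (L x)) (fun x => tt (L x)) := tc_nat_of_ptf_L (ptf_tt ptu_val) hL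
theorem tc_rr : TC P (fun x => Tb (L x)) (fun x => rr (L x)) := tc_nat_of_ptf_L (ptf_rr ptu_val) hL

theorem tu_tt : TU P (fun x => Tb (L x)) (fun x => tt (L x)) := TU.ofNat (tc_tt hL) sv_tt.bud0
theorem tu_rr : TU P (fun x => Tb (L x)) (fun x => rr (L x)) := TU.ofNat (tc_rr hL) sv_rr.bud0

end tc

section small

variable {α : Type} [PTCode α] {P : Dom α} {L : α → ℕ}

theorem small_tt : Small P (fun x => Tb (L x)) (fun x => tt (L x)) :=
  so_size_tt.small_of_size (by norm_num)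

end small

/-- the room needed by the layer (ancillas, streams) -/
theorem ev_layer_room (w c : ℕ) : ∀ᶠ L in atTop,
    ff L * Nat.size (ff L) + w * jj L + 2 * Nat.size (ff L) + c ≤ kk L := by
  refine SO.le_kk (a := 1 / 32) ?_ (by norm_num)
  exact (((so_ff.mul_zero' so_ff.size).add ((so_jj.const_mul w).mono (by norm_num))).add
    ((so_ff.size.const_mul 2).mono (by norm_num))).add_const (by norm_num) c

end Par

end Crest.Agent.X326
end

-- ▼ part X326/Top/ParM4
section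

/-!
# The parameters of the exact convolution as an `M4.Par` (row 326)
-/

set_option autoImplicit false

namespace Crest.Agent.X326.Par

open Filter Crest.Agent.Lib.PT

/-! ### the parameters of the exact convolution -/

/-- the parameters of M4 -/
def par (L : ℕ) : M4.Par := ⟨kk L, dd L, rho L, PP L⟩

@[simp] theorem par_k (L : ℕ) : (par L).k = kk L := rfl
@[simp] theorem par_d (L : ℕ) : (par L).d = dd L := rfl
@[simp] theorem par_lr (L : ℕ) : (par L).lr = rho L := rfl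
@[simp] theorem par_P (L : ℕ) : (par L).P = PP L := rfl
@[simp] theorem par_t (L : ℕ) : (par L).t = tt L := rfl
@[simp] theorem par_r (L : ℕ) : (par L).r = rr L := rfl
@[simp] theorem par_M (L : ℕ) : (par L).M = 2 ^ PP L - 1 := rfl
@[simp] theorem par_N (L : ℕ) : (par L).N = tt L ^ dd L := pow_mul _ _ _
@[simp] theorem par_vol (L : ℕ) : (par L).vol = tt L ^ dd L * rr L * PP L := by
  simp [M4.Par.vol]

theorem ev_par_ok : ∀ᶠ L in atTop, (par L).Ok := by
  filter_upwards [ev_kk_ge 1, ev_PP_ge 2, ev_rho_le_PP, ev_kk_mul_dd_le_PP, ev_PP_le]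
    with L h1 h2 h3 h4 h5
  exact ⟨h1, (kk_le_rho L).trans (Nat.le_succ _), by simp [dd], h2, h3, h4, h5⟩

theorem sv_par_vol : SV (fun L => (par L).vol) 0 := by
  simpa only [par_vol] using sv_grid_mul (a := 0) (so_PP.mono (by norm_num)) le_rfl

theorem tc_par {α : Type} [PTCode α] {P : Dom α} {L : α → ℕ} (hL : TU P (fun x => Tb (L x)) L) :
    TC P (fun x => Tb (L x)) (fun x => par (L x)) :=
  (TC.prodMk (tu_kk hL).tc (TC.prodMk (tu_dd hL).tc (TC.prodMk (tu_rho hL).tc (tu_PP hL).tc))).recode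
    fun _ _ => rfl

end Crest.Agent.X326.Par
end

-- ▼ part X326/Top/Budget
section

/-!
# The cost formulas of the components are within the budget (row 326)
-/

set_option autoImplicit false

namespace Crest.Agent.X326.Par

open Filter Crest.Agent.Lib.PT

/-- quasi-linear cost functions of a convolution of `r` entries of `p` bits -/
def MuOk (μ : ℕ → ℕ → ℕ) : Prop :=
  ∃ C c : ℕ, ∀ r p, μ r p ≤
    C * ((r + 1) * ((p + Nat.size r + 1) * (Nat.size r + 1) * (Nat.size (p + Nat.size r) + 1) ^ c))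

variable {μ : ℕ → ℕ → ℕ}

/-- the cost per entry -/
theorem so_mu_entry {r p : ℕ → ℕ} {a b : ℝ} (hr : SO (fun L => Nat.size (r L)) a) (hp : SO p b)
    (ha : 0 ≤ a) (hab : a ≤ b) (c : ℕ) :
    SO (fun L => (p L + Nat.size (r L) + 1) * (Nat.size (r L) + 1) *
      (Nat.size (p L + Nat.size (r L)) + 1) ^ c) (b + a) := by
  have h1 : SO (fun L => p L + Nat.size (r L)) b := hp.add (hr.mono hab)
  exact ((h1.add_const (ha.trans hab) 1).mul (hr.add_const ha 1)).mul_zero'
    ((h1.size.add_const le_rfl 1).pow_zero' c)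

/-- the pointwise products of M4 -/
theorem sv_pointwise (hμ : MuOk μ) : SV (fun L => tt L ^ dd L * μ (rr L) (PP L)) (31 / 32) := by
  obtain ⟨C, c, h⟩ := hμ
  have h1 := so_mu_entry so_size_rr so_PP (by norm_num) (by norm_num) c
  have h2 := sv_grid_mul (a := 31 / 32) (h1.mono (by norm_num)) (by norm_num)
  refine SV.of_le' (fun L => ?_) (h2.const_mul (C * 2))
  have h3 := h (rr L) (PP L)
  have h4 := rr_pos L
  generalize (PP L + Nat.size (rr L) + 1) * (Nat.size (rr L) + 1) *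
    (Nat.size (PP L + Nat.size (rr L)) + 1) ^ c = E at h3 ⊢
  calc tt L ^ dd L * μ (rr L) (PP L) ≤ tt L ^ dd L * (C * ((2 * rr L) * E)) :=
        Nat.mul_le_mul_left _ (h3.trans (Nat.mul_le_mul_left _
          (Nat.mul_le_mul_right _ (by omega))))
    _ = _ := by ring

/-- the factor of one layer: `(j + 1) * (m ^ j * (q + c)) ^ τ` -/
theorem so_layer_factor {τ : ℝ} (hτ : 0 ≤ τ) {q : ℕ → ℕ} (hq : SO q 0) :
    SO (fun L => (jj L + 1) * pw τ (ff L * q L)) (τ / 32) :=
  ((so_jj.add_const le_rfl 1).zero_mul' ((so_ff.mul_zero' hq).pw (by norm_num) hτ)).mono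
    (le_of_eq (by ring))


/-- `k` rounds with a layer of cost `TL`, `SV TL (τ / 32)` -/
theorem sv_rounds {τ : ℝ} (hτ0 : 0 ≤ τ) {TL : ℕ → ℕ} (hTL : SV TL (τ / 32)) :
    SV (fun L => kk L * (TL L + (par L).vol)) (31 / 32 + τ / 32) :=
  SV.so_mul so_kk (hTL.add (sv_par_vol.mono (by positivity)))

/-- the whole cost of M4 -/
theorem sv_m4 {τ : ℝ} (hτ0 : 0 ≤ τ) {TL : M4.Par → ℕ} (hTL : SV (fun L => TL (par L)) (τ / 32))
    (hμ : MuOk μ) :
    SV (fun L => (par L).k * (TL (par L) + (par L).vol) + (par L).N * μ (par L).r (par L).P)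
      (31 / 32 + τ / 32) := by
  simp only [par_k, par_N, par_r, par_P]
  exact (sv_rounds hτ0 hTL).add ((sv_pointwise hμ).mono (by linarith))

theorem m4_exp_lt_aT {τ : ℝ} (hτ : τ ≤ 1 - 1 / (2 : ℝ) ^ 90) : 31 / 32 + τ / 32 < aT := by
  refine lt_aT ?_
  have : (1 : ℝ) / 2 ^ 99 ≤ 1 / (2 : ℝ) ^ 90 / 32 := by norm_num
  linarith


theorem sv_vol_mul {φ : ℕ → ℕ} {a : ℝ} (hφ : SO φ a) : SV (fun L => (par L).vol * φ L) a :=
  (sv_par_vol.mul_so hφ).mono (by simp)

/-- one level of the filter bank on at most `tt ^ dd * rr` entries of width `w` -/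
theorem sv_bandCost (hμ : MuOk μ) {w : ℕ → ℕ} {a : ℝ} (hw : SO w (a + 1)) (ha : 0 ≤ a) :
    SV (fun L => FB.bandCost μ (nu L * (tt L ^ dd L * rr L)) (beta L) (w L)) (a + 1 / 32) := by
  obtain ⟨C, c, h⟩ := hμ
  have hβ : SO beta (a + 1) := so_beta.mono (by linarith)
  have h1 : SV (fun L => nu L * (tt L ^ dd L * rr L * ((w L + beta L + 1) * (beta L + 1))))
      (1 / 32 + a) :=
    SV.so_mul so_nu (sv_grid_mul (((hw.add hβ).add_const (by linarith) 1).mul_zero'
      (so_beta.add_const le_rfl 1)) ha)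
  have hs : SO (fun L => Nat.size (2 ^ (beta L + 1))) 0 :=
    SO.size_of_le_two_pow (g := fun L => beta L + 1) (Eventually.of_forall fun _ => le_rfl)
      (so_beta.add_const le_rfl 1) le_rfl
  have h2 := so_mu_entry hs hw le_rfl (by linarith) c
  have h3 := SV.so_mul so_nu (sv_grid_mul (a := a) (h2.mono (by simp)) ha)
  refine SV.of_le' (fun L => ?_) ((h1.add (h3.const_mul (C * 3))).mono (by linarith))
  unfold FB.bandCost
  refine Nat.add_le_add (le_of_eq (by ring)) ?_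
  have h4 := h (2 ^ (beta L + 1)) (w L)
  generalize (w L + Nat.size (2 ^ (beta L + 1)) + 1) * (Nat.size (2 ^ (beta L + 1)) + 1) *
    (Nat.size (w L + Nat.size (2 ^ (beta L + 1))) + 1) ^ c = E at h4 ⊢
  have h5 : nu L * (tt L ^ dd L * rr L) / 2 ^ beta L * 2 ^ beta L ≤ nu L * (tt L ^ dd L * rr L) :=
    Nat.div_mul_le_self _ _
  have h6 : 0 < 2 ^ beta L := by positivity
  have h7 : 2 ^ (beta L + 1) + 1 ≤ 3 * 2 ^ beta L := by rw [pow_succ]; omega
  calc nu L * (tt L ^ dd L * rr L) / 2 ^ beta L * μ (2 ^ (beta L + 1)) (w L)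
      ≤ nu L * (tt L ^ dd L * rr L) / 2 ^ beta L * (C * ((3 * 2 ^ beta L) * E)) :=
        Nat.mul_le_mul_left _ (h4.trans (Nat.mul_le_mul_left _ (Nat.mul_le_mul_right _ h7)))
    _ = C * 3 * ((nu L * (tt L ^ dd L * rr L) / 2 ^ beta L * 2 ^ beta L) * E) := by ring
    _ ≤ C * 3 * ((nu L * (tt L ^ dd L * rr L)) * E) :=
        Nat.mul_le_mul_left _ (Nat.mul_le_mul_right _ h5)
    _ = _ := by ring

/-- all levels of the filter bank: `c L` levels (exponent `b`) -/
theorem sv_mul_bandCost (hμ : MuOk μ) {w c : ℕ → ℕ} {a b : ℝ} (hw : SO w (a + 1)) (ha : 0 ≤ a)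
    (hc : SO c b) :
    SV (fun L => c L * FB.bandCost μ (nu L * (tt L ^ dd L * rr L)) (beta L) (w L))
      (b + (a + 1 / 32)) :=
  SV.so_mul hc (sv_bandCost hμ hw ha)



end Crest.Agent.X326.Par
end

-- ▼ part X326/FB/CoeffPT
section

/-!
# Coefficients of integer polynomials in polynomial time, by Kronecker substitution

`pl1 p` is the sum of the absolute values of the coefficients. If the value of `p` at `2 ^ w` is
computable in polynomial time and `2 * pl1 p < 2 ^ w`, then every coefficient is a balanced digit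
of that value, hence computable in polynomial time.
-/

set_option autoImplicit false

namespace Crest.Agent.X326.FB

open Polynomial Finset Crest.Agent.Lib.PT

/-! ### the `pl1` norm of an integer polynomial -/

/-- sum of the absolute values of the coefficients -/
noncomputable def pl1 (p : ℤ[X]) : ℕ := ∑ i ∈ p.support, (p.coeff i).natAbs

theorem pl1_eq_sum {p : ℤ[X]} {s : Finset ℕ} (hs : p.support ⊆ s) :
    pl1 p = ∑ i ∈ s, (p.coeff i).natAbs := by
  refine Finset.sum_subset hs (fun i _ hi => ?_)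
  rw [Polynomial.notMem_support_iff.1 hi]
  rfl

theorem sum_le_pl1 (p : ℤ[X]) (s : Finset ℕ) : ∑ i ∈ s, (p.coeff i).natAbs ≤ pl1 p := by
  rw [pl1_eq_sum (s := p.support ∪ s) Finset.subset_union_left]
  exact Finset.sum_le_sum_of_subset Finset.subset_union_right

theorem natAbs_coeff_le_pl1 (p : ℤ[X]) (i : ℕ) : (p.coeff i).natAbs ≤ pl1 p := by
  simpa using sum_le_pl1 p {i}

theorem pl1_zero : pl1 0 = 0 := by simp [pl1]

theorem pl1_monomial (n : ℕ) (a : ℤ) : pl1 (monomial n a) = a.natAbs := by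
  rw [pl1_eq_sum (support_monomial_subset n a)]
  simp

theorem pl1_C (a : ℤ) : pl1 (C a) = a.natAbs := by
  rw [← monomial_zero_left, pl1_monomial]

theorem pl1_one : pl1 1 = 1 := by
  rw [← C_1, pl1_C]; rfl

theorem pl1_X : pl1 X = 1 := by
  rw [← monomial_one_one_eq_X, pl1_monomial]; rfl

theorem pl1_neg (p : ℤ[X]) : pl1 (-p) = pl1 p := by simp [pl1]

theorem pl1_add_le (p q : ℤ[X]) : pl1 (p + q) ≤ pl1 p + pl1 q := by
  rw [pl1_eq_sum (s := p.support ∪ q.support) support_add,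
    pl1_eq_sum (s := p.support ∪ q.support) Finset.subset_union_left,
    pl1_eq_sum (s := p.support ∪ q.support) Finset.subset_union_right, ← Finset.sum_add_distrib]
  exact Finset.sum_le_sum (fun i _ => by rw [coeff_add]; exact Int.natAbs_add_le _ _)

theorem pl1_sub_le (p q : ℤ[X]) : pl1 (p - q) ≤ pl1 p + pl1 q := by
  rw [sub_eq_add_neg, ← pl1_neg q]
  exact pl1_add_le _ _

theorem pl1_sum_le {ι : Type} (s : Finset ι) (f : ι → ℤ[X]) :
    pl1 (∑ i ∈ s, f i) ≤ ∑ i ∈ s, pl1 (f i) := by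
  classical
  induction s using Finset.induction_on with
  | empty => simp [pl1_zero]
  | insert i s hi ih =>
    rw [Finset.sum_insert hi, Finset.sum_insert hi]
    exact (pl1_add_le _ _).trans (Nat.add_le_add_left ih _)

theorem pl1_mul_le (p q : ℤ[X]) : pl1 (p * q) ≤ pl1 p * pl1 q := by
  rw [Polynomial.mul_eq_sum_sum]
  refine (pl1_sum_le _ _).trans ?_
  unfold Polynomial.sum
  conv_rhs => rw [pl1, pl1, Finset.sum_mul_sum]
  refine Finset.sum_le_sum (fun i _ => (pl1_sum_le _ _).trans (le_of_eq ?_))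
  exact Finset.sum_congr rfl (fun j _ => by rw [pl1_monomial, Int.natAbs_mul])

theorem pl1_pow_le (p : ℤ[X]) (n : ℕ) : pl1 (p ^ n) ≤ pl1 p ^ n := by
  induction n with
  | zero => simp [pl1_one]
  | succ n ih =>
    rw [pow_succ, pow_succ]
    exact (pl1_mul_le _ _).trans (Nat.mul_le_mul_right _ ih)

theorem pl1_prod_le {ι : Type} (s : Finset ι) (f : ι → ℤ[X]) :
    pl1 (∏ i ∈ s, f i) ≤ ∏ i ∈ s, pl1 (f i) := by
  classical
  induction s using Finset.induction_on with
  | empty => simp [pl1_one]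
  | insert i s hi ih =>
    rw [Finset.prod_insert hi, Finset.prod_insert hi]
    exact (pl1_mul_le _ _).trans (Nat.mul_le_mul_left _ ih)

theorem pl1_X_pow (n : ℕ) : pl1 (X ^ n) = 1 := by
  rw [← monomial_one_right_eq_X_pow, pl1_monomial]; rfl

theorem pl1_comp_X_pow_le (p : ℤ[X]) (n : ℕ) : pl1 (p.comp (X ^ n)) ≤ pl1 p := by
  rw [Polynomial.comp, Polynomial.eval₂_eq_sum, Polynomial.sum]
  refine (pl1_sum_le _ _).trans (Finset.sum_le_sum (fun i _ => (pl1_mul_le _ _).trans ?_))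
  rw [← pow_mul, pl1_X_pow, pl1_C, mul_one]

theorem pl1_expand_le (p : ℤ[X]) (n : ℕ) : pl1 (expand ℤ n p) ≤ pl1 p := by
  rw [Polynomial.coe_expand]
  exact pl1_comp_X_pow_le p n

/-! ### balanced digits -/

/-- the balanced digit number `m` of `V` in base `2 * H` -/
def balDigit (H V : ℤ) (m : ℕ) : ℤ :=
  (V + H * ∑ i ∈ range (m + 1), (2 * H) ^ i) / (2 * H) ^ m % (2 * H) - H

theorem digits_lt {B : ℤ} (c : ℕ → ℤ) (h : ∀ i, 0 ≤ c i ∧ c i < B) (m : ℕ) :
    0 ≤ ∑ i ∈ range m, c i * B ^ i ∧ ∑ i ∈ range m, c i * B ^ i < B ^ m := by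
  have hB : 0 < B := (h 0).1.trans_lt (h 0).2
  induction m with
  | zero => simp
  | succ m ih =>
    rw [Finset.sum_range_succ, pow_succ]
    have h1 : 0 < B ^ m := pow_pos hB m
    have h2 := h m
    constructor
    · have := mul_nonneg h2.1 h1.le
      omega
    · have : (c m + 1) * B ^ m ≤ B * B ^ m := mul_le_mul_of_nonneg_right (by omega) h1.le
      nlinarith [ih.2]

theorem coeff_eq_balDigit (p : ℤ[X]) {H : ℤ} (h : ∀ i, |p.coeff i| < H) (m : ℕ) :
    p.coeff m = balDigit H (p.eval (2 * H)) m := by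
  have hH : 0 < H := (abs_nonneg _).trans_lt (h 0)
  set B : ℤ := 2 * H with hB
  have hB0 : 0 < B := by omega
  obtain ⟨R, hR⟩ : ∃ R : ℤ, p.eval B = ∑ i ∈ range (m + 1), p.coeff i * B ^ i + B ^ (m + 1) * R := by
    refine ⟨∑ i ∈ range p.natDegree, p.coeff (m + 1 + i) * B ^ i, ?_⟩
    rw [Polynomial.eval_eq_sum_range' (n := m + 1 + p.natDegree) (by omega), Finset.sum_range_add,
      Finset.mul_sum]
    congr 1
    exact Finset.sum_congr rfl (fun i _ => by ring)
  have hd := digits_lt (B := B) (fun i => p.coeff i + H)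
    (fun i => by have := abs_lt.1 (h i); constructor <;> omega) m
  have e : p.eval B + H * ∑ i ∈ range (m + 1), B ^ i =
      ∑ i ∈ range m, (p.coeff i + H) * B ^ i + B ^ m * (p.coeff m + H + B * R) := by
    rw [hR, Finset.mul_sum, Finset.sum_range_succ, Finset.sum_range_succ]
    simp only [add_mul, Finset.sum_add_distrib]
    ring
  have hm := abs_lt.1 (h m)
  unfold balDigit
  rw [← hB, e, Int.add_mul_ediv_left _ _ (pow_pos hB0 m).ne', Int.ediv_eq_zero_of_lt hd.1 hd.2,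
    zero_add, Int.add_mul_emod_self_left, Int.emod_eq_of_lt (by omega) (by omega)]
  ring

variable {α : Type} [PTCode α]

theorem ptf_balDigit {H V : α → ℤ} {m : α → ℕ} (hH : PTF H) (hV : PTF V) (hm : PTU m) :
    PTF (fun a => balDigit (H a) (V a) (m a)) := by
  have h1 : PTF (fun a => ∑ i ∈ range (m a + 1), (2 * H a) ^ (min i (m a))) := by
    refine PTF.intSumRange (f := fun a i => (2 * H a) ^ (min i (m a))) hm.succ ?_
    exact PTF.intPow (PTF.intMul (PTF.const _) (hH.comp PTF.fst))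
      (PTF.natMinUn PTF.snd (hm.comp PTF.fst))
  have h2 : PTF (fun a => ∑ i ∈ range (m a + 1), (2 * H a) ^ i) :=
    h1.of_eq (fun a => Finset.sum_congr rfl (fun i hi => by
      rw [min_eq_left (Nat.lt_succ_iff.1 (Finset.mem_range.1 hi))]))
  have h3 : PTF (fun a => 2 * H a) := PTF.intMul (PTF.const _) hH
  exact PTF.intSub (PTF.intEmod (PTF.intEdiv (PTF.intAdd hV (PTF.intMul hH h2))
    (PTF.intPow h3 hm)) h3) hH

/-- Coefficients of a family of integer polynomials are poly-time as soon as evaluation is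
poly-time, the degree is bounded by a unary quantity and the `pl1` norm by `2 ^ w`, `w` unary. -/
theorem ptf_coeff {p : α → ℤ[X]} {w D m : α → ℕ} (hw : PTU w) (hD : PTU D) (hm : PTF m)
    (hev : PTF₂ (fun a (x : ℤ) => (p a).eval x)) (hl : ∀ a, pl1 (p a) ≤ 2 ^ w a)
    (hdeg : ∀ a, (p a).natDegree ≤ D a) : PTF (fun a => (p a).coeff (m a)) := by
  have hH : PTF (fun a => (2 : ℤ) ^ (w a + 1)) := PTF.intPow (PTF.const _) hw.succ
  have hV : PTF (fun a => (p a).eval (2 * (2 : ℤ) ^ (w a + 1))) :=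
    hev.comp₂ PTF.id (PTF.intMul (PTF.const _) hH)
  have h := ptf_balDigit hH hV (PTF.natMinUn hm hD.succ)
  refine h.of_eq (fun a => ?_)
  rw [← coeff_eq_balDigit]
  · rcases le_total (m a) (D a + 1) with h1 | h1
    · rw [min_eq_left h1]
    · rw [min_eq_right h1, coeff_eq_zero_of_natDegree_lt (by have := hdeg a; omega),
        coeff_eq_zero_of_natDegree_lt (by have := hdeg a; omega)]
  · intro i
    have h1 := (natAbs_coeff_le_pl1 (p a) i).trans (hl a)
    have h2 : ((((p a).coeff i).natAbs : ℕ) : ℤ) ≤ ((2 ^ w a : ℕ) : ℤ) := by exact_mod_cast h1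
    rw [Int.natCast_natAbs] at h2
    push_cast at h2
    have h3 : (0 : ℤ) < 2 ^ w a := by positivity
    rw [pow_succ]
    omega

end Crest.Agent.X326.FB
end

-- ▼ part X326/FB/MajPT
section

/-!
# The coefficients of the filter polynomials are computable in polynomial time
-/

set_option autoImplicit false

namespace Crest.Agent.X326.FB

open Polynomial Finset Crest.Agent.Lib.PT

/-! ### crude size bounds -/

theorem pl1_one_add_X_sq : pl1 ((1 + X) ^ 2) ≤ 4 := by
  refine (pl1_pow_le _ _).trans ?_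
  have := pl1_add_le 1 X
  rw [pl1_one, pl1_X] at this
  exact Nat.pow_le_pow_left this 2

theorem pl1_neg_one_sub_X_sq : pl1 (-(1 - X) ^ 2) ≤ 4 := by
  rw [pl1_neg]
  refine (pl1_pow_le _ _).trans ?_
  have := pl1_sub_le 1 X
  rw [pl1_one, pl1_X] at this
  exact Nat.pow_le_pow_left this 2

theorem pl1_Mj_le (n : ℕ) : pl1 (Mj n) ≤ 2 ^ (7 * n + 3) := by
  refine (pl1_sum_le _ _).trans ?_
  have h : ∀ j ∈ range (n + 1), pl1 (C (((2 * n + 1).choose (n + 1 + j) : ℕ) : ℤ) *
      ((1 + X) ^ 2) ^ (n + 1 + j) * (-(1 - X) ^ 2) ^ (n - j)) ≤ 2 ^ (6 * n + 3) := by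
    intro j hj
    have hj' := Finset.mem_range.1 hj
    have h1 := (pl1_pow_le _ (n + 1 + j)).trans (Nat.pow_le_pow_left pl1_one_add_X_sq _)
    have h2 := (pl1_pow_le _ (n - j)).trans (Nat.pow_le_pow_left pl1_neg_one_sub_X_sq _)
    have h3 : pl1 (C (((2 * n + 1).choose (n + 1 + j) : ℕ) : ℤ)) ≤ 2 ^ (2 * n + 1) := by
      rw [pl1_C, Int.natAbs_natCast]
      exact Nat.choose_le_two_pow _ _
    refine (pl1_mul_le _ _).trans ((Nat.mul_le_mul ((pl1_mul_le _ _).trans
      (Nat.mul_le_mul h3 h1)) h2).trans (le_of_eq ?_))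
    rw [mul_assoc, ← pow_add, show n + 1 + j + (n - j) = 2 * n + 1 by omega,
      show (4 : ℕ) = 2 ^ 2 by norm_num, ← pow_mul, ← pow_add]
    congr 1
    ring
  refine (Finset.sum_le_sum h).trans ?_
  rw [Finset.sum_const, card_range, smul_eq_mul, show 7 * n + 3 = n + (6 * n + 3) by ring, pow_add 2 n]
  exact Nat.mul_le_mul_right _ Nat.lt_two_pow_self

theorem pl1_GI_le (n k : ℕ) : pl1 (GI n k) ≤ 2 ^ ((7 * n + 3) * k) := by
  refine (pl1_prod_le _ _).trans ?_
  refine (Finset.prod_le_prod' (g := fun _ => 2 ^ (7 * n + 3))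
    (fun i _ => (pl1_expand_le _ _).trans (pl1_Mj_le n))).trans ?_
  rw [Finset.prod_const, card_range, pow_mul]

theorem pl1_HI_le (n k Q2 : ℕ) : pl1 (HI n k Q2) ≤ 2 ^ ((7 * n + 3) * (k - 1 + 1)) := by
  refine (pl1_mul_le _ _).trans ((Nat.mul_le_mul ((pl1_expand_le _ _).trans (pl1_Mj_le n))
    (pl1_GI_le n _)).trans (le_of_eq ?_))
  rw [← pow_add]
  congr 1
  ring

theorem natDegree_Mj_le' (n : ℕ) : (Mj n).natDegree ≤ 4 * n + 2 := by
  refine Polynomial.natDegree_sum_le_of_forall_le _ _ (fun j hj => ?_)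
  have hj' := Finset.mem_range.1 hj
  have h1 : ((1 + X : ℤ[X]) ^ 2).natDegree ≤ 2 := by compute_degree
  have h2 : (-(1 - X : ℤ[X]) ^ 2).natDegree ≤ 2 := by compute_degree
  have h3 := Polynomial.natDegree_pow_le_of_le (n + 1 + j) h1
  have h4 := Polynomial.natDegree_pow_le_of_le (n - j) h2
  refine natDegree_mul_le.trans ((Nat.add_le_add ((natDegree_C_mul_le _ _).trans h3) h4).trans ?_)
  omega

theorem natDegree_GI_le' (n k : ℕ) : (GI n k).natDegree ≤ (4 * n + 2) * 2 ^ k := by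
  induction k with
  | zero => simp [GI]
  | succ k ih =>
    rw [GI, Finset.prod_range_succ]
    refine natDegree_mul_le.trans ?_
    rw [natDegree_expand]
    have := Nat.mul_le_mul_right (2 ^ k) (natDegree_Mj_le' n)
    rw [pow_succ, ← mul_assoc, mul_two]
    exact Nat.add_le_add ih this

theorem natDegree_HI_le' (n k Q2 : ℕ) : (HI n k Q2).natDegree ≤ (4 * n + 2) * (Q2 + 2 ^ k) := by
  refine natDegree_mul_le.trans ?_
  rw [natDegree_expand, mul_add]
  refine Nat.add_le_add (Nat.mul_le_mul_right _ (natDegree_Mj_le' n))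
    ((natDegree_GI_le' n _).trans (Nat.mul_le_mul_left _ ?_))
  exact Nat.pow_le_pow_right (by norm_num) (Nat.sub_le _ _)

/-! ### evaluation and coefficients are poly-time -/

variable {α : Type} [PTCode α]

theorem ptf_choose {n k : α → ℕ} (hn : PTU n) (hk : PTU k) : PTF (fun a => (n a).choose (k a)) := by
  have h := PTF.ite (PTU.le hk hn) (PTF.natDiv (PTF.natFactorial hn)
    (PTF.natMul (PTF.natFactorial hk) (PTF.natFactorial (PTU.sub hn hk)))) (PTF.const 0)
  refine h.of_eq (fun a => ?_)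
  split_ifs with h
  · exact (Nat.choose_eq_factorial_div_factorial h).symm
  · exact (Nat.choose_eq_zero_of_lt (by omega)).symm

/-- an exponent whose power of two is unary is itself unary -/
theorem ptu_of_two_pow {k : α → ℕ} (hk : PTU (fun a => 2 ^ k a)) : PTU k :=
  (PTU.sub (PTF.natSizeUn hk.toPTF) (PTU.const 1)).of_eq (fun a => by simp [Nat.size_pow])

theorem ptf_eval_Mj {n : α → ℕ} {x : α → ℤ} (hn : PTU n) (hx : PTF x) :
    PTF (fun a => (Mj (n a)).eval (x a)) := by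
  have hn' : PTU (fun q : α × ℕ => n q.1) := hn.comp PTF.fst
  have hx' : PTF (fun q : α × ℕ => x q.1) := hx.comp PTF.fst
  have hj : PTU (fun q : α × ℕ => min q.2 (n q.1)) := PTF.natMinUn PTF.snd hn'
  have h1 : PTF (fun a => ∑ j ∈ range (n a + 1),
      (((2 * n a + 1).choose (n a + 1 + min j (n a)) : ℕ) : ℤ) *
        ((1 + x a) ^ 2) ^ (n a + 1 + min j (n a)) * (-(1 - x a) ^ 2) ^ (n a - min j (n a))) := by
    refine PTF.intSumRange (f := fun a j => (((2 * n a + 1).choose (n a + 1 + min j (n a)) : ℕ) : ℤ) *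
        ((1 + x a) ^ 2) ^ (n a + 1 + min j (n a)) * (-(1 - x a) ^ 2) ^ (n a - min j (n a)))
      hn.succ ?_
    exact PTF.intMul (PTF.intMul
      (PTF.intNatCast (ptf_choose ((PTU.mul (PTU.const 2) hn').succ) (hn'.succ.add hj)))
      (PTF.intPow (PTF.intPowConst (PTF.intAdd (PTF.const 1) hx') 2) (hn'.succ.add hj)))
      (PTF.intPow (PTF.intNeg (PTF.intPowConst (PTF.intSub (PTF.const 1) hx') 2)) (hn'.sub hj))
  refine h1.of_eq (fun a => ?_)
  rw [Mj, eval_finsetSum]
  refine Finset.sum_congr rfl (fun j hj => ?_)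
  rw [min_eq_left (Nat.lt_succ_iff.1 (Finset.mem_range.1 hj))]
  simp

theorem ptf_eval_GI {n k : α → ℕ} {x : α → ℤ} (hn : PTU n) (hk : PTU (fun a => 2 ^ k a))
    (hx : PTF x) : PTF (fun a => (GI (n a) (k a)).eval (x a)) := by
  have hk0 := ptu_of_two_pow hk
  have h1 : PTF (fun a => ∏ i ∈ range (k a),
      (Mj (n a)).eval (x a ^ (min (2 ^ (min i (k a))) (2 ^ k a)))) := by
    refine PTF.intProdRange
      (f := fun a i => (Mj (n a)).eval (x a ^ (min (2 ^ (min i (k a))) (2 ^ k a)))) hk0 ?_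
    exact ptf_eval_Mj (hn.comp PTF.fst) (PTF.intPow (hx.comp PTF.fst)
      (PTF.natMinUn (PTF.natTwoPow (PTF.natMinUn PTF.snd (hk0.comp PTF.fst))) (hk.comp PTF.fst)))
  refine h1.of_eq (fun a => ?_)
  rw [GI, eval_prod]
  refine Finset.prod_congr rfl (fun i hi => ?_)
  have hi' := (Finset.mem_range.1 hi).le
  rw [min_eq_left hi', min_eq_left (Nat.pow_le_pow_right (by norm_num) hi'), expand_eval]

theorem ptu_two_pow_pred {k : α → ℕ} (hk : PTU (fun a => 2 ^ k a)) : PTU (fun a => 2 ^ (k a - 1)) :=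
  (PTF.natMinUn (PTF.natTwoPow (PTU.sub (ptu_of_two_pow hk) (PTU.const 1))) hk).of_eq
    (fun a => min_eq_left (Nat.pow_le_pow_right (by norm_num) (Nat.sub_le _ _)))

theorem ptf_eval_HI {n k Q2 : α → ℕ} {x : α → ℤ} (hn : PTU n) (hk : PTU (fun a => 2 ^ k a))
    (hQ : PTU Q2) (hx : PTF x) : PTF (fun a => (HI (n a) (k a) (Q2 a)).eval (x a)) :=
  (PTF.intMul (ptf_eval_Mj hn (PTF.intPow hx hQ))
    (ptf_eval_GI (k := fun a => k a - 1) hn (ptu_two_pow_pred hk) hx)).of_eq
    (fun a => by rw [HI, eval_mul, expand_eval])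

theorem ptf_coeff_GI {n k m : α → ℕ} (hn : PTU n) (hk : PTU (fun a => 2 ^ k a)) (hm : PTF m) :
    PTF (fun a => (GI (n a) (k a)).coeff (m a)) :=
  ptf_coeff (w := fun a => (7 * n a + 3) * k a) (D := fun a => (4 * n a + 2) * 2 ^ k a)
    ((((PTU.const 7).mul hn).add (PTU.const 3)).mul (ptu_of_two_pow hk))
    ((((PTU.const 4).mul hn).add (PTU.const 2)).mul hk) hm
    (ptf_eval_GI (k := fun q : α × ℤ => k q.1) (hn.comp PTF.fst) (hk.comp PTF.fst) PTF.snd)
    (fun _ => pl1_GI_le _ _) (fun _ => natDegree_GI_le' _ _)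

theorem ptf_coeff_HI {n k Q2 m : α → ℕ} (hn : PTU n) (hk : PTU (fun a => 2 ^ k a)) (hQ : PTU Q2)
    (hm : PTF m) : PTF (fun a => (HI (n a) (k a) (Q2 a)).coeff (m a)) :=
  ptf_coeff (w := fun a => (7 * n a + 3) * (k a - 1 + 1))
    (D := fun a => (4 * n a + 2) * (Q2 a + 2 ^ k a))
    ((((PTU.const 7).mul hn).add (PTU.const 3)).mul
      (((ptu_of_two_pow hk).sub (PTU.const 1)).succ))
    ((((PTU.const 4).mul hn).add (PTU.const 2)).mul (hQ.add hk)) hm
    (ptf_eval_HI (k := fun q : α × ℤ => k q.1) (hn.comp PTF.fst) (hk.comp PTF.fst)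
      (hQ.comp PTF.fst) PTF.snd)
    (fun _ => pl1_HI_le _ _ _) (fun _ => natDegree_HI_le' _ _ _)

theorem ptf_cZ {F : α → ℤ[X]} {x : α → ℤ} (hF : PTF₂ (fun a (m : ℕ) => (F a).coeff m))
    (hx : PTF x) : PTF (fun a => cZ (F a) (x a)) :=
  PTF.ite (PTPred.intLe (PTF.const 0) hx) (hF.comp₂ PTF.id (PTF.intToNat hx)) (PTF.const 0)

theorem ptf_tap {F : α → ℤ[X]} {c m s : α → ℕ} {x : α → ℤ}
    (hF : PTF₂ (fun a (m : ℕ) => (F a).coeff m)) (hc : PTF c) (hm : PTF m) (hs : PTF s)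
    (hx : PTF x) : PTF (fun a => tap (F a) (c a) (m a) (s a) (x a)) :=
  PTF.intEdiv (PTF.intMul (PTF.intNatCast hm) (ptf_cZ hF (PTF.intAdd hx (PTF.intNatCast hc))))
    (PTF.intNatCast hs)

theorem ptf_sG {n k : α → ℕ} (hn : PTU n) (hk : PTU k) : PTF (fun a => sG (n a) (k a)) :=
  PTF.natPow (PTF.const 4) ((((PTU.const 2).mul hn).succ).mul hk)

theorem ptu_dG {n k : α → ℕ} (hn : PTU n) (hk : PTU (fun a => 2 ^ k a)) :
    PTU (fun a => dG (n a) (k a)) :=
  (((PTU.const 2).mul hn).succ).mul (hk.sub (PTU.const 1))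

theorem ptu_dH {n k Q2 : α → ℕ} (hn : PTU n) (hk : PTU (fun a => 2 ^ k a)) (hQ : PTU Q2) :
    PTU (fun a => dH (n a) (k a) (Q2 a)) :=
  ((((PTU.const 2).mul hn).succ).mul hQ).add
    (ptu_dG (k := fun a => k a - 1) hn (ptu_two_pow_pred hk))

end Crest.Agent.X326.FB
end

-- ▼ part X326/FB/TapsPT
section

/-!
# The integer taps `gI`, `hI` are computable in polynomial time (unary `2 ^ k`, `Q2`, `ν`, `p`)
-/

set_option autoImplicit false

namespace Crest.Agent.X326.FB

open Polynomial Finset Crest.Agent.Lib.PT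

variable {α : Type} [PTCode α]

theorem ptu_nTap {ν p : α → ℕ} (hν : PTU ν) (hp : PTU p) : PTU (fun a => nTap (ν a) (p a)) :=
  ((PTU.const 4).mul (hν.pow 2)).mul hp

theorem ptf_gI {k ν p : α → ℕ} {x : α → ℤ} (hk : PTU (fun a => 2 ^ k a)) (hν : PTU ν) (hp : PTU p)
    (hx : PTF x) : PTF (fun a => gI (k a) (ν a) (p a) (x a)) :=
  ptf_tap (F := fun a => GI (nTap (ν a) (p a)) (k a))
    (ptf_coeff_GI (k := fun q : α × ℕ => k q.1) ((ptu_nTap hν hp).comp PTF.fst) (hk.comp PTF.fst)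
      PTF.snd)
    (ptu_dG (ptu_nTap hν hp) hk).toPTF (PTF.natMul (PTF.natTwoPow hp) hk.toPTF)
    (ptf_sG (ptu_nTap hν hp) (ptu_of_two_pow hk)) hx

theorem ptf_hI {k Q2 ν p : α → ℕ} {x : α → ℤ} (hk : PTU (fun a => 2 ^ k a)) (hQ : PTU Q2)
    (hν : PTU ν) (hp : PTU p) (hx : PTF x) : PTF (fun a => hI (k a) (Q2 a) (ν a) (p a) (x a)) :=
  ptf_tap (F := fun a => HI (nTap (ν a) (p a)) (k a) (Q2 a))
    (ptf_coeff_HI (k := fun q : α × ℕ => k q.1) ((ptu_nTap hν hp).comp PTF.fst) (hk.comp PTF.fst)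
      (hQ.comp PTF.fst) PTF.snd)
    (ptu_dH (ptu_nTap hν hp) hk hQ).toPTF
    (PTF.natMul (PTF.natTwoPow hp) (PTF.natMul (PTF.const 2) hQ.toPTF))
    (ptf_sG (ptu_nTap hν hp) (ptu_of_two_pow hk)) hx


end Crest.Agent.X326.FB
end

-- ▼ part X326/FB/TabPT
section

/-!
# The filter tables `tabA`, `tabS` are computable in polynomial time
-/

set_option autoImplicit false

namespace Crest.Agent.X326.FB

open Crest.Agent.Lib.PT

variable {α : Type} [PTCode α]

theorem ptf_tabA {P γ δ B : α → ℕ} {h : α → ℤ → ℤ} (hP : PTU P) (hγ : PTF γ) (hδ : PTF δ)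
    (hB : PTU B) (hh : PTF₂ h) : PTF (fun a => tabA (P a) (γ a) (δ a) (B a) (h a)) := by
  refine PTF.tabulate (f := fun a ρ => tab (B a) fun m =>
    h a ((γ a : ℤ) * m - ρ + δ a - γ a * ((B a : ℤ) - 1))) hP ?_
  refine PTF.tabulate (f := fun (q : α × ℕ) m =>
    h q.1 ((γ q.1 : ℤ) * m - q.2 + δ q.1 - γ q.1 * ((B q.1 : ℤ) - 1))) (hB.comp PTF.fst) ?_
  have e : PTF (fun q : (α × ℕ) × ℕ => q.1.1) := PTF.fst.comp PTF.fst
  have h1 := PTF.intNatCast (hγ.comp e)
  exact hh.comp₂ e (PTF.intSub (PTF.intAdd (PTF.intSub (PTF.intMul h1 (PTF.intNatCast PTF.snd))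
    (PTF.intNatCast (PTF.snd.comp PTF.fst))) (PTF.intNatCast (hδ.comp e)))
    (PTF.intMul h1 (PTF.intSub (PTF.intNatCast (hB.toPTF.comp e)) (PTF.const 1))))

theorem ptf_tabS {P γ δ B : α → ℕ} {g : α → ℤ → ℤ} (hP : PTU P) (hγ : PTF γ) (hδ : PTF δ)
    (hB : PTU B) (hg : PTF₂ g) : PTF (fun a => tabS (P a) (γ a) (δ a) (B a) (g a)) := by
  refine PTF.tabulate (f := fun a ρ => tab (B a) fun m =>
    g a ((γ a : ℤ) * m + ρ + γ a - P a - 2 * δ a)) hP ?_
  refine PTF.tabulate (f := fun (q : α × ℕ) m =>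
    g q.1 ((γ q.1 : ℤ) * m + q.2 + γ q.1 - P q.1 - 2 * δ q.1)) (hB.comp PTF.fst) ?_
  have e : PTF (fun q : (α × ℕ) × ℕ => q.1.1) := PTF.fst.comp PTF.fst
  have h1 := PTF.intNatCast (hγ.comp e)
  exact hg.comp₂ e (PTF.intSub (PTF.intSub (PTF.intAdd (PTF.intAdd
    (PTF.intMul h1 (PTF.intNatCast PTF.snd)) (PTF.intNatCast (PTF.snd.comp PTF.fst))) h1)
    (PTF.intNatCast (hP.toPTF.comp e))) (PTF.intMul (PTF.const 2) (PTF.intNatCast (hδ.comp e))))

/-- the analysis table of the actual taps; `2 ^ k`, `Q2`, `ν`, `p`, `B` unary -/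
theorem ptf_tabA_hI {k Q2 ν p γ δ B : α → ℕ} (hk : PTU (fun a => 2 ^ k a)) (hQ : PTU Q2)
    (hν : PTU ν) (hp : PTU p) (hγ : PTF γ) (hδ : PTF δ) (hB : PTU B) :
    PTF (fun a => tabA (2 ^ k a) (γ a) (δ a) (B a) (hI (k a) (Q2 a) (ν a) (p a))) :=
  ptf_tabA (h := fun a => hI (k a) (Q2 a) (ν a) (p a)) hk hγ hδ hB
    (ptf_hI (k := fun q : α × ℤ => k q.1) (hk.comp PTF.fst) (hQ.comp PTF.fst) (hν.comp PTF.fst)
      (hp.comp PTF.fst) PTF.snd)

/-- the synthesis table of the actual taps; `2 ^ k`, `ν`, `p`, `B` unary -/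
theorem ptf_tabS_gI {k ν p γ δ B : α → ℕ} (hk : PTU (fun a => 2 ^ k a))
    (hν : PTU ν) (hp : PTU p) (hγ : PTF γ) (hδ : PTF δ) (hB : PTU B) :
    PTF (fun a => tabS (2 ^ k a) (γ a) (δ a) (B a) (gI (k a) (ν a) (p a))) :=
  ptf_tabS (g := fun a => gI (k a) (ν a) (p a)) hk hγ hδ hB
    (ptf_gI (k := fun q : α × ℤ => k q.1) (hk.comp PTF.fst) (hν.comp PTF.fst)
      (hp.comp PTF.fst) PTF.snd)

end Crest.Agent.X326.FB
end

-- ▼ part X326/Top/ParBank
section

/-!
# The filter bank at the chosen parameters: side conditions, tables, cost (row 326)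
-/

set_option autoImplicit false

namespace Crest.Agent.X326.Par

open Filter Crest.Agent.Lib.PT

/-- width of the taps -/
def wt (L : ℕ) : ℕ := pp L + kk L + 1

theorem so_wt : SO wt 1 := (so_pp.add (so_kk.mono (by norm_num))).add_const zero_le_one 1

theorem pp_le_wt (L : ℕ) : pp L ≤ wt L := by unfold wt; omega

theorem two_pow_pp_mul_tt_lt (L : ℕ) : (2 : ℤ) ^ pp L * (tt L : ℕ) < 2 ^ wt L := by
  unfold wt tt
  push_cast
  rw [← pow_add]
  exact pow_lt_pow_right₀ (by norm_num) (Nat.lt_succ_self _)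

theorem sv_bankCost {μ : ℕ → ℕ → ℕ} (hμ : MuOk μ) {w : ℕ → ℕ} (hw : SO w 1) :
    SV (fun L => FB.bankCost μ (tt L) (nu L) (beta L) (rr L) (ee L) (w L) (wt L)) (3 / 32) := by
  have he : SO (fun L => ee L + 1) (1 / 32) := so_ee.add_const (by norm_num) 1
  have h1 : SO (fun L => w L + (ee L + 1) * (wt L + beta L)) (1 / 32 + 1) :=
    (hw.mono (by norm_num)).add (he.mul (so_wt.add (so_beta.mono zero_le_one)))
  exact (sv_mul_bandCost hμ h1 (by norm_num) he).mono (by norm_num)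

theorem three_div_lt_aT : (3 : ℝ) / 32 < aT := lt_aT (by norm_num)

theorem ev_bankOk : ∀ᶠ L in atTop,
    FB.BankOk (tt L) (QQ L) (gam L) (nu L) (beta L) (dl L) (rr L) := by
  filter_upwards [ev_gam_mul_nu, ev_gam_pos, ev_BB_dvd, ev_dl_BB] with L h1 h2 h3 h4
  exact ⟨h1.symm, rfl, h2, (by norm_num : 2 ≤ 4).trans (four_le_nu L), rr_pos L, h3, h4⟩

/-- the synthesis taps -/
noncomputable def gT (L : ℕ) : ℤ → ℤ := FB.gI (kk L) (nu L) (pp L)

/-- the analysis taps -/
noncomputable def hT (L : ℕ) : ℤ → ℤ := FB.hI (kk L) (QQ L / 2) (nu L) (pp L)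

theorem ev_taps (h : FB.TapsStatement) : ∀ᶠ L in atTop,
    FB.Taps (tt L) (QQ L) (pp L) (dl L) (2 ^ pp L * cc L) (gT L) (hT L) := by
  filter_upwards [ev_taps_hyp] with L ⟨h1, h2, h3, h4, h5⟩
  have := h (kk L) (QQ L / 2) (nu L) (pp L) h1 h2 h3 h4
  rw [h5] at this
  exact this

section tc

variable {α : Type} [PTCode α] {P : Dom α} {L : α → ℕ}

/-- `L` and `tt L` in unary -/
theorem tc_L_tt (hL : TU P (fun x => Tb (L x)) L) :
    TC P (fun x => Tb (L x)) (fun x => (Un.mk (L x), Un.mk (tt (L x)))) :=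
  TC.prodMk hL.tc (tu_tt hL).tc

theorem small_L_tt : Small P (fun x => Tb (L x)) (fun x => sz (Un.mk (L x), Un.mk (tt (L x)))) :=
  ((((Small.const 2).mul small_L).add (Small.const 1)).add small_tt).mono fun x _ => by
    simp only [sz_prod, sz_un]; omega

/-- the table of the analysis filter (any computable offset) is computed within the budget -/
theorem tc_tabA_of {o : ℕ → ℕ} (ho : PTF fun u : Un => o u.val)
    (hL : TU P (fun x => Tb (L x)) L) : TC P (fun x => Tb (L x))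
    (fun x => FB.tabA (tt (L x)) (gam (L x)) (o (L x)) (2 ^ beta (L x)) (hT (L x))) := by
  have hl : PTU fun q : Un × Un => q.1.val := PTU.val PTF.fst
  have ht : PTU fun q : Un × Un => q.2.val := PTU.val PTF.snd
  -- the exponent is capped so that `2 ^ k` is polynomial in the unary input
  have hk : PTU fun q : Un × Un => 2 ^ min (kk q.1.val) (Nat.log 2 q.2.val) := by
    refine ptu_of_le (PTF.natTwoPow ((ptu_kk hl).min (ptu_log ht))) ht.succ fun q => ?_
    rcases Nat.eq_zero_or_pos q.2.val with h | h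
    · simp [h]
    · exact ((Nat.pow_le_pow_right (by norm_num) (min_le_right _ _)).trans
        (Nat.pow_log_le_self 2 h.ne')).trans (Nat.le_succ _)
  have hQ : PTU fun q : Un × Un => min (QQ q.1.val / 2) q.2.val :=
    PTF.natMinUn (PTF.natDiv (ptf_QQ hl) (PTF.const 2)) ht
  have h := FB.ptf_tabA_hI hk hQ (ptu_nu hl) (ptu_pp hl) (ptf_gam hl)
    (PTF.comp (g := fun u : Un => o u.val) ho PTF.fst) (ptu_BB hl)
  refine (TC.ptf h (tc_L_tt hL) small_L_tt).of_eq fun x => ?_
  have e1 : min (kk (L x)) (Nat.log 2 (tt (L x))) = kk (L x) := by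
    unfold tt; rw [Nat.log_pow (by norm_num), min_self]
  have e2 : min (QQ (L x) / 2) (tt (L x)) = QQ (L x) / 2 :=
    min_eq_left ((Nat.div_le_self _ _).trans (QQ_le_tt _))
  simp only [e1, e2]
  rfl


theorem tc_tabA' (hL : TU P (fun x => Tb (L x)) L) : TC P (fun x => Tb (L x))
    (fun x => FB.tabA (tt (L x)) (gam (L x)) (dl (L x) + QQ (L x)) (2 ^ beta (L x)) (hT (L x))) :=
  tc_tabA_of (o := fun L => dl L + QQ L) (PTF.natAdd (ptf_dl ptu_val) (ptf_QQ ptu_val)) hL

/-- the table of the synthesis filter is computed within the budget -/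
theorem tc_tabS (hL : TU P (fun x => Tb (L x)) L) : TC P (fun x => Tb (L x))
    (fun x => FB.tabS (tt (L x)) (gam (L x)) (dl (L x)) (2 ^ beta (L x)) (gT (L x))) := by
  have hl : PTU fun q : Un × Un => q.1.val := PTU.val PTF.fst
  have ht : PTU fun q : Un × Un => q.2.val := PTU.val PTF.snd
  have hk : PTU fun q : Un × Un => 2 ^ min (kk q.1.val) (Nat.log 2 q.2.val) := by
    refine ptu_of_le (PTF.natTwoPow ((ptu_kk hl).min (ptu_log ht))) ht.succ fun q => ?_
    rcases Nat.eq_zero_or_pos q.2.val with h | h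
    · simp [h]
    · exact ((Nat.pow_le_pow_right (by norm_num) (min_le_right _ _)).trans
        (Nat.pow_log_le_self 2 h.ne')).trans (Nat.le_succ _)
  have h := FB.ptf_tabS_gI hk (ptu_nu hl) (ptu_pp hl) (ptf_gam hl) (ptf_dl hl) (ptu_BB hl)
  refine (TC.ptf h (tc_L_tt hL) small_L_tt).of_eq fun x => ?_
  have e1 : min (kk (L x)) (Nat.log 2 (tt (L x))) = kk (L x) := by
    unfold tt; rw [Nat.log_pow (by norm_num), min_self]
  simp only [e1]
  rfl

end tc

end Crest.Agent.X326.Par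
end

-- ▼ part X326/Top/Grid

/-!
# Row 326, top level: the exact convolution on the grid for flat integer lists

The program of `M4.SpecM4` works on records of residues modulo `M = 2 ^ P - 1`.  Here it is
wrapped into a program on flat lists of integers: reduce, cut into records, convolve, flatten and
lift to the balanced representatives.
-/

set_option autoImplicit false

namespace Crest.Agent.X326.Top

open Crest.Agent.Lib.PT FB

/-- a flat integer array on the grid of `p`, with entries of absolute value below the modulus -/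
def GrL (p : M4.Par) (l : List ℤ) : Prop := l.length = p.N * p.r ∧ ∀ z ∈ l, |z| < (p.M : ℤ)

/-- **The exact grid convolution on flat integer lists**, at cost `T`. -/
def SpecGrid (ok : M4.Par → Prop) (T : M4.Par → ℕ) : Prop :=
  ∃ G : M4.Par × List ℤ × List ℤ → List ℤ,
    TC (fun q => ok q.1 ∧ GrL q.1 q.2.1 ∧ GrL q.1 q.2.2) (fun q => T q.1) G ∧
    ∀ (p : M4.Par) (a b : Arr), ok p → (∀ x < p.N * p.r, |a x| < (p.M : ℤ)) →
      (∀ x < p.N * p.r, |b x| < (p.M : ℤ)) →
      (∀ x < p.N * p.r, 2 * |tower p.t (p.d - 1) p.r (nega p.r) a b x| < (p.M : ℤ)) →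
      G (p, tab (p.N * p.r) a, tab (p.N * p.r) b) =
        tab (p.N * p.r) (tower p.t (p.d - 1) p.r (nega p.r) a b)

namespace Gr

/-- the residue of an integer of absolute value below `M` -/
def res (M : ℕ) (z : ℤ) : ℕ := if z < 0 then M - z.natAbs else z.natAbs

/-- the balanced representative of a residue -/
def lift (M c : ℕ) : ℤ := if M < 2 * c ∧ c < M then -((M - c : ℕ) : ℤ) else c

theorem res_lt {M : ℕ} {z : ℤ} (h : |z| < (M : ℤ)) : res M z < M := by
  rw [abs_lt] at h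
  unfold res
  split_ifs <;> omega

theorem cast_res {M : ℕ} {z : ℤ} (h : |z| < (M : ℤ)) : ((res M z : ℕ) : ZMod M) = (z : ZMod M) := by
  rw [abs_lt] at h
  have e : ((res M z : ℕ) : ℤ) = z ∨ ((res M z : ℕ) : ℤ) = z + M := by
    unfold res
    split_ifs <;> omega
  rw [← Int.cast_natCast]
  rcases e with e | e <;> simp [e]

theorem lift_eq {M c : ℕ} {z : ℤ} (hc : c < M) (h : (c : ZMod M) = (z : ZMod M))
    (hz : 2 * |z| < (M : ℤ)) : lift M c = z := by
  rw [← Int.cast_natCast, ZMod.intCast_eq_intCast_iff_dvd_sub] at h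
  obtain ⟨k, hk⟩ := h
  have hz' : -(M : ℤ) < 2 * z ∧ 2 * z < M := by
    rcases abs_cases z with h | h <;> omega
  have hM : (0 : ℤ) < M := by omega
  have k1 : k < 1 := by
    by_contra hk1
    have : (M : ℤ) * 1 ≤ M * k := Int.mul_le_mul_of_nonneg_left (by omega) hM.le
    omega
  have k2 : -2 < k := by
    by_contra hk2
    have : (M : ℤ) * k ≤ M * (-2) := Int.mul_le_mul_of_nonneg_left (by omega) hM.le
    omega
  have : k = 0 ∨ k = -1 := by omega
  unfold lift
  rcases this with rfl | rfl <;> split_ifs <;> omega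

section TC

variable {α : Type} [PTCode α] {P : Dom α} {T : Cost α}

theorem tc_pair {z : α → ℤ} (hz : TC P T z) :
    TC P T (fun x => (decide (z x < 0), (z x).natAbs)) := hz.recode fun _ _ => rfl

theorem lin_res : Lin (fun q : ℕ × ℤ => res q.1 q.2) := by
  have h : Lin (fun q : ℕ × ℤ => (decide (q.2 < 0), q.2.natAbs)) := tc_pair (by fun_prop)
  have h1 : Lin (fun q : ℕ × ℤ => decide (q.2 < 0)) := h.fst
  have h2 : Lin (fun q : ℕ × ℤ => q.2.natAbs) := h.snd
  exact TC.ite' h1 (TC.natSub (by fun_prop) h2.tc) h2.tc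

theorem lin_lift : Lin (fun q : ℕ × ℕ => lift q.1 q.2) := by
  have hp : TP (fun _ : ℕ × ℕ => True) (fun _ => 0) (fun q => q.1 < 2 * q.2 ∧ q.2 < q.1) :=
    TP.and (TP.natLt (by fun_prop) (TC.natConstMul 2 (by fun_prop)))
      (TP.natLt (by fun_prop) (by fun_prop))
  have h : Lin (fun q : ℕ × ℕ => if q.1 < 2 * q.2 ∧ q.2 < q.1 then (true, q.1 - q.2)
      else (false, q.2)) :=
    TC.ite hp (TC.prodMk (TC.const _) (TC.natSub (by fun_prop) (by fun_prop)))
      (TC.prodMk (TC.const _) (by fun_prop))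
  refine h.recode fun q _ => ?_
  change enc _ = enc (decide (lift q.1 q.2 < 0), (lift q.1 q.2).natAbs)
  congr 1
  unfold lift
  split_ifs with hq
  · refine Prod.ext (by simp; omega) (by simp only [Int.natAbs_neg, Int.natAbs_natCast])
  · refine Prod.ext (by simp) (by simp)

theorem tc_parts {p : α → M4.Par} (hp : TC P T p) :
    TC P T (fun x => (Un.mk (p x).k, Un.mk (p x).d, Un.mk (p x).lr, Un.mk (p x).P)) :=
  hp.recode fun _ _ => rfl

theorem tu_lr {p : α → M4.Par} (hp : TC P T p) : TU P T (fun x => (p x).lr) :=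
  (tc_parts hp).snd.snd.fst

theorem tu_P {p : α → M4.Par} (hp : TC P T p) : TU P T (fun x => (p x).P) :=
  (tc_parts hp).snd.snd.snd

theorem tc_M {p : α → M4.Par} (hp : TC P T p) : TC P T (fun x => (p x).M) :=
  TC.natSub (TC.natTwoPow (tu_P hp)) (TC.const 1)

theorem sz_M_le (p : M4.Par) : sz p.M ≤ p.P :=
  sz_le_of_lt_two_pow (Nat.sub_lt (by positivity) one_pos)

end TC

/-- reduce and cut into records -/
def inL (p : M4.Par) (l : List ℤ) : List (List ℕ) := chunks p.r (l.map (res p.M))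

/-- flatten and lift -/
def outL (p : M4.Par) (c : List (List ℕ)) : List ℤ := c.flatten.map (lift p.M)

theorem r_pos (p : M4.Par) : 0 < p.r := by unfold M4.Par.r; positivity

theorem N_pos (p : M4.Par) : 0 < p.N := by unfold M4.Par.N; positivity

theorem inL_tab (p : M4.Par) (a : Arr) :
    inL p (tab (p.N * p.r) a) = tab p.N fun n => tab p.r fun j => res p.M (a (n * p.r + j)) := by
  rw [inL, map_tab, chunks_tab _ (r_pos p)]

theorem idx_lt {N r n j : ℕ} (hn : n < N) (hj : j < r) : n * r + j < N * r := by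
  have : (n + 1) * r ≤ N * r := Nat.mul_le_mul_right r hn
  rw [Nat.succ_mul] at this
  omega

theorem wf_inL_tab (p : M4.Par) {a : Arr} (ha : ∀ x < p.N * p.r, |a x| < (p.M : ℤ)) :
    p.WF (inL p (tab (p.N * p.r) a)) := by
  rw [inL_tab]
  refine ⟨by simp, forall_mem_tab.2 fun n hn => ⟨by simp, forall_mem_tab.2 fun j hj => ?_⟩⟩
  exact res_lt (ha _ (idx_lt hn hj))

theorem coef_inL_tab (p : M4.Par) {a : Arr} (ha : ∀ x < p.N * p.r, |a x| < (p.M : ℤ))
    (n : ℕ) (hn : n < p.N) (j : ℕ) (hj : j < p.r) :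
    M4.coef p.M (inL p (tab (p.N * p.r) a)) j n = ((a (n * p.r + j) : ℤ) : ZMod p.M) := by
  rw [inL_tab, M4.coef, getD_tab _ _ hn, getD_tab _ _ hj, cast_res (ha _ (idx_lt hn hj))]

theorem wf_inL {p : M4.Par} {l : List ℤ} (h : GrL p l) : p.WF (inL p l) := by
  rw [eq_tab h.1 0]
  refine wf_inL_tab p fun x hx => h.2 _ ?_
  rw [List.getD_eq_getElem _ _ (by rw [h.1]; exact hx)]
  exact List.getElem_mem _

theorem eq_tab_of_wf {p : M4.Par} {c : List (List ℕ)} (h : p.WF c) :
    c = tab p.N fun n => tab p.r fun j => (c.getD n []).getD j 0 := by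
  conv_lhs => rw [eq_tab h.1 []]
  refine tab_congr fun n hn => eq_tab (h.2 _ ?_).1 0
  rw [List.getD_eq_getElem _ _ (by rw [h.1]; exact hn)]
  exact List.getElem_mem _

theorem length_flatten_of_wf {p : M4.Par} {c : List (List ℕ)} (h : p.WF c) :
    c.flatten.length = p.N * p.r := by
  rw [eq_tab_of_wf h, flatten_tab, length_tab]

theorem outL_eq {p : M4.Par} {c : List (List ℕ)} (h : p.WF c) {w : Arr}
    (hw : ∀ n < p.N, ∀ j < p.r, M4.coef p.M c j n = ((w (n * p.r + j) : ℤ) : ZMod p.M))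
    (hb : ∀ x < p.N * p.r, 2 * |w x| < (p.M : ℤ)) : outL p c = tab (p.N * p.r) w := by
  rw [outL, eq_tab_of_wf h, flatten_tab, map_tab]
  refine tab_congr fun x hx => ?_
  have hr := r_pos p
  have hn : x / p.r < p.N := by rwa [Nat.div_lt_iff_lt_mul hr]
  have hj : x % p.r < p.r := Nat.mod_lt _ hr
  have hx' : x / p.r * p.r + x % p.r = x := Nat.div_add_mod' x p.r
  have hm : c.getD (x / p.r) [] ∈ c := by
    rw [List.getD_eq_getElem _ _ (by rw [h.1]; exact hn)]
    exact List.getElem_mem _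
  have hM : 0 < p.M := by
    have := hb x hx
    have := abs_nonneg (w x)
    omega
  refine lift_eq ((h.2 _ hm).getD_lt hM _) ?_ (hb x hx)
  have := hw _ hn _ hj
  rwa [hx'] at this

section TC

variable {α : Type} [PTCode α] {P : Dom α} {T : Cost α}

theorem tc_inL {p : α → M4.Par} {l : α → List ℤ} (hp : TC P T p) (hl : TC P T l)
    (hlen : ∀ x, P x → (l x).length = (p x).N * (p x).r) (hv : Bud P T (fun x => (p x).vol)) :
    TC P T (fun x => inL (p x) (l x)) := by
  have hr : TU P T (fun x => (p x).r) :=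
    TU.twoPow (tu_lr hp) ((Bud.length hl).mono fun x hx => by
      rw [hlen x hx]
      exact Nat.le_mul_of_pos_left _ (N_pos _))
  refine TC.chunksTU hr (TC.mapCtx_lin (f := res) lin_res (tc_M hp) hl (hv.mono fun x hx => ?_))
  rw [hlen x hx]
  exact Nat.mul_le_mul_left _ (sz_M_le _)

theorem tc_outL {p : α → M4.Par} {c : α → List (List ℕ)} (hp : TC P T p) (hc : TC P T c)
    (hwf : ∀ x, P x → (p x).WF (c x)) (hv : Bud P T (fun x => (p x).vol)) :
    TC P T (fun x => outL (p x) (c x)) := by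
  refine TC.mapCtx_lin (f := lift) lin_lift (tc_M hp) hc.flatten (hv.mono fun x hx => ?_)
  rw [length_flatten_of_wf (hwf x hx)]
  exact Nat.mul_le_mul_left _ (sz_M_le _)

end TC

end Gr

open Gr in
/-- The grid convolution on integer lists from the one on records of residues. -/
theorem specGrid {ok : M4.Par → Prop} {T : M4.Par → ℕ} (h : M4.SpecM4 ok T) :
    SpecGrid ok (fun p => T p + p.vol) := by
  obtain ⟨cv, hcv, hspec⟩ := h
  refine ⟨fun q => outL q.1 (cv (q.1, inL q.1 q.2.1, inL q.1 q.2.2)), ?_, ?_⟩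
  · have hv : Bud (fun q : M4.Par × List ℤ × List ℤ => ok q.1 ∧ GrL q.1 q.2.1 ∧ GrL q.1 q.2.2)
        (fun q => T q.1 + q.1.vol) (fun q => q.1.vol) :=
      Bud.of_le_mul 1 fun _ _ => by omega
    refine tc_outL (by fun_prop) (hcv.comp (TC.prodMk (by fun_prop) (TC.prodMk
      (tc_inL (by fun_prop) (by fun_prop) (fun _ hx => hx.2.1.1) hv)
      (tc_inL (by fun_prop) (by fun_prop) (fun _ hx => hx.2.2.1) hv)))
      (fun _ hx => ⟨hx.1, wf_inL hx.2.1, wf_inL hx.2.2⟩) (Bud.of_le_mul 1 fun _ _ => by simp))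
      (fun _ hx => (hspec _ _ _ hx.1 (wf_inL hx.2.1) (wf_inL hx.2.2)).1) hv
  · intro p a b hp ha hb hc
    obtain ⟨hwf, hs⟩ := hspec p _ _ hp (wf_inL_tab p ha) (wf_inL_tab p hb)
    exact outL_eq hwf (hs a b (coef_inL_tab p ha) (coef_inL_tab p hb)) hc

end Crest.Agent.X326.Top
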