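import Crest.Agent.X326.Top.SO

-- ▼ part X326/Top/LB
section

/-!
# Soft lower bounds (row 326, top level asymptotics)

`LB f a` : `L^(a-δ) ≤ f L` eventually, for every `δ > 0`.  Together with `SO` this gives
comparison lemmas (`SO.eventually_le_lb`, `SO.eventually_lt_two_pow_lb`) and quotients.
`ex E L = 2 ^ (log₂ L / E)` is the basic power-of-two parameter of exact order `L ^ (1/E)`.
-/

set_option autoImplicit false

namespace Crest.Agent.X326

open Filter

/-- `L ^ (a - δ) ≤ f L` eventually, for every `δ > 0`. -/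
def LB (f : ℕ → ℕ) (a : ℝ) : Prop :=
  ∀ δ : ℝ, 0 < δ → ∀ᶠ L : ℕ in atTop, (L : ℝ) ^ (a - δ) ≤ f L

theorem eventually_const_le_rpow (C : ℝ) {δ : ℝ} (hδ : 0 < δ) :
    ∀ᶠ L : ℕ in atTop, C ≤ (L : ℝ) ^ δ :=
  ((tendsto_rpow_atTop hδ).comp tendsto_natCast_atTop_atTop).eventually_ge_atTop C

namespace LB

variable {f g : ℕ → ℕ} {a b : ℝ}

theorem of_le (h : ∀ᶠ L in atTop, f L ≤ g L) (hf : LB f a) : LB g a := by
  intro δ hδ
  filter_upwards [h, hf δ hδ] with L h1 h2
  exact h2.trans (by exact_mod_cast h1)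

theorem of_le' (h : ∀ L, f L ≤ g L) (hf : LB f a) : LB g a := of_le (Eventually.of_forall h) hf

theorem mono (hf : LB f a) (hab : b ≤ a) : LB f b := by
  intro δ hδ
  filter_upwards [hf δ hδ, eventually_ge_atTop 1] with L h1 h2
  have h3 : (1 : ℝ) ≤ L := by exact_mod_cast h2
  exact (Real.rpow_le_rpow_of_exponent_le h3 (by linarith)).trans h1

/-- a real lower bound `L ^ a ≤ C * f L` -/
theorem of_bound (C : ℝ) (h : ∀ᶠ L : ℕ in atTop, (L : ℝ) ^ a ≤ C * f L) : LB f a := by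
  intro δ hδ
  filter_upwards [h, eventually_const_le_rpow C hδ, eventually_ge_atTop 1] with L h1 h2 h3
  have h4 : (0 : ℝ) < L := by exact_mod_cast h3
  have h5 : (0 : ℝ) < (L : ℝ) ^ δ := Real.rpow_pos_of_pos h4 δ
  rw [Real.rpow_sub h4, div_le_iff₀ h5]
  refine h1.trans ?_
  rw [mul_comm]
  exact mul_le_mul_of_nonneg_left h2 (Nat.cast_nonneg _)

theorem id : LB (fun L => L) 1 := of_bound 1 (Eventually.of_forall fun L => by simp)

theorem of_pos (h : ∀ᶠ L in atTop, 0 < f L) : LB f 0 := by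
  refine of_bound 1 ?_
  filter_upwards [h] with L h1
  have : (1 : ℝ) ≤ f L := by exact_mod_cast h1
  simpa using this


theorem mul (hf : LB f a) (hg : LB g b) : LB (fun L => f L * g L) (a + b) := by
  intro δ hδ
  filter_upwards [hf (δ / 2) (by linarith), hg (δ / 2) (by linarith), eventually_ge_atTop 1]
    with L h1 h2 h3
  have h4 : (0 : ℝ) < L := by exact_mod_cast h3
  have e : (L : ℝ) ^ (a + b - δ) = (L : ℝ) ^ (a - δ / 2) * (L : ℝ) ^ (b - δ / 2) := by
    rw [← Real.rpow_add h4]; congr 1; ring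
  rw [e, Nat.cast_mul]
  exact mul_le_mul h1 h2 (by positivity) (Nat.cast_nonneg _)

theorem pow (hf : LB f a) (n : ℕ) : LB (fun L => f L ^ n) (n * a) := by
  induction n with
  | zero => simpa using of_pos (f := fun _ => 1) (Eventually.of_forall fun _ => one_pos)
  | succ n ih =>
    have := ih.mul hf
    simp only [← pow_succ] at this
    refine this.mono (le_of_eq ?_)
    push_cast; ring

theorem add_right (hf : LB f a) (g : ℕ → ℕ) : LB (fun L => f L + g L) a :=
  of_le' (fun _ => Nat.le_add_right _ _) hf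

theorem add_left (g : ℕ → ℕ) (hf : LB f a) : LB (fun L => g L + f L) a :=
  of_le' (fun _ => Nat.le_add_left _ _) hf

theorem const_mul {c : ℕ} (hc : 0 < c) (hf : LB f a) : LB (fun L => c * f L) a :=
  of_le' (fun _ => Nat.le_mul_of_pos_left _ hc) hf

end LB

namespace SO

variable {f g : ℕ → ℕ} {a b : ℝ}

/-- comparison of an upper and a lower bound -/
theorem eventually_le_lb (hf : SO f a) (hg : LB g b) (hab : a < b) :
    ∀ᶠ L : ℕ in atTop, f L ≤ g L := by
  filter_upwards [hf.eventually_le_rpow (b := (a + b) / 2) (by linarith),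
    hg ((b - a) / 2) (by linarith)] with L h1 h2
  rw [show b - (b - a) / 2 = (a + b) / 2 by ring] at h2
  exact_mod_cast h1.trans h2


/-- anything polynomial is eventually below `2 ^ g` when `g` grows like a power -/
theorem eventually_lt_two_pow_lb (hf : SO f a) (hg : LB g b) (hb : 0 < b) :
    ∀ᶠ L : ℕ in atTop, f L < 2 ^ g L := by
  filter_upwards [hf.size.eventually_le_lb hg hb] with L h
  exact Nat.size_le.1 h

theorem eventually_le_two_pow_lb (hf : SO f a) (hg : LB g b) (hb : 0 < b) :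
    ∀ᶠ L : ℕ in atTop, f L ≤ 2 ^ g L :=
  (hf.eventually_lt_two_pow_lb hg hb).mono fun _ h => h.le

/-- quotient of an upper by a lower bound -/
theorem div_lb (hf : SO f a) (hg : LB g b) : SO (fun L => f L / g L) (a - b) := by
  intro δ hδ
  obtain ⟨C, hC, h⟩ := hf (δ / 2) (by linarith)
  refine ⟨C, hC, ?_⟩
  filter_upwards [h, hg (δ / 2) (by linarith), eventually_ge_atTop 1] with L h1 h2 h3
  have h4 : (0 : ℝ) < L := by exact_mod_cast h3
  have h5 : (0 : ℝ) < (L : ℝ) ^ (b - δ / 2) := Real.rpow_pos_of_pos h4 _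
  have e : (L : ℝ) ^ (a - b + δ) = (L : ℝ) ^ (a + δ / 2) / (L : ℝ) ^ (b - δ / 2) := by
    rw [← Real.rpow_sub h4]; congr 1; ring
  calc ((f L / g L : ℕ) : ℝ) ≤ (f L : ℝ) / g L := Nat.cast_div_le
    _ ≤ (C * (L : ℝ) ^ (a + δ / 2)) / (L : ℝ) ^ (b - δ / 2) :=
        div_le_div₀ (by positivity) h1 h5 h2
    _ = _ := by rw [e]; ring


end SO

namespace LB

variable {f g : ℕ → ℕ} {a b : ℝ}

/-- if `h ≤ f * g` and `g` is bounded above then `f` is bounded below -/
theorem of_le_mul {h : ℕ → ℕ} (hh : LB h a) (hg : SO g b) (hle : ∀ᶠ L in atTop, h L ≤ f L * g L) :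
    LB f (a - b) := by
  intro δ hδ
  filter_upwards [hh (δ / 2) (by linarith), hg.eventually_le_rpow (b := b + δ / 2) (by linarith),
    hle, eventually_ge_atTop 1] with L h1 h2 h3 h4
  have h5 : (0 : ℝ) < L := by exact_mod_cast h4
  have h6 : (0 : ℝ) < (L : ℝ) ^ (b + δ / 2) := Real.rpow_pos_of_pos h5 _
  have e : (L : ℝ) ^ (a - b - δ) = (L : ℝ) ^ (a - δ / 2) / (L : ℝ) ^ (b + δ / 2) := by
    rw [← Real.rpow_sub h5]; congr 1; ring
  rw [e, div_le_iff₀ h6]
  have h7 : (h L : ℝ) ≤ f L * g L := by exact_mod_cast h3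
  exact h1.trans (h7.trans (mul_le_mul_of_nonneg_left h2 (Nat.cast_nonneg _)))

theorem sub (hf : LB f a) (hg : SO g b) (hab : b < a) : LB (fun L => f L - g L) a := by
  have h1 := (hg.const_mul 2).eventually_le_lb hf hab
  have := hf.of_le_mul (f := fun L => f L - g L) (SO.const 2)
    (by filter_upwards [h1] with L h; omega)
  simpa using this

theorem div (hf : LB f a) (hg : SO g b) (hab : b < a) (hpos : ∀ᶠ L in atTop, 0 < g L) :
    LB (fun L => f L / g L) (a - b) := by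
  have h1 := hg.eventually_le_lb hf hab
  refine hf.of_le_mul (g := fun L => 2 * g L) (hg.const_mul 2) ?_
  filter_upwards [h1, hpos] with L h2 h3
  have h4 : 0 < f L / g L := Nat.div_pos h2 h3
  have h5 := Nat.lt_div_mul_add (a := f L) h3
  nlinarith


theorem eventually_ge (hf : LB f a) (ha : 0 < a) (c : ℕ) : ∀ᶠ L in atTop, c ≤ f L :=
  (SO.const c).eventually_le_lb hf ha

theorem pw (hf : LB f a) {τ : ℝ} (hτ : 0 ≤ τ) : LB (fun L => X326.pw τ (f L)) (τ * a) := by
  intro δ hδ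
  filter_upwards [hf (δ / (τ + 1)) (by positivity), eventually_ge_atTop 1] with L h1 h3
  have h4 : (1 : ℝ) ≤ L := by exact_mod_cast h3
  refine le_trans ?_ (le_pw τ (f L))
  calc (L : ℝ) ^ (τ * a - δ) ≤ (L : ℝ) ^ ((a - δ / (τ + 1)) * τ) := by
        refine Real.rpow_le_rpow_of_exponent_le h4 ?_
        have : δ / (τ + 1) * τ ≤ δ := by
          rw [div_mul_eq_mul_div, div_le_iff₀ (by linarith)]
          nlinarith
        nlinarith
    _ = ((L : ℝ) ^ (a - δ / (τ + 1))) ^ τ := Real.rpow_mul (by linarith) _ _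
    _ ≤ _ := Real.rpow_le_rpow (by positivity) h1 hτ

end LB

/-- `2 ^ (log₂ L / E)`, a power of two of exact order `L ^ (1 / E)` -/
def ex (E L : ℕ) : ℕ := 2 ^ (Nat.log 2 L / E)


theorem ex_pow_le (E : ℕ) {L : ℕ} (hL : L ≠ 0) : ex E L ^ E ≤ L := by
  unfold ex
  rw [← pow_mul]
  exact (Nat.pow_le_pow_right (by norm_num) (Nat.div_mul_le_self _ _)).trans
    (Nat.pow_log_le_self 2 hL)

theorem lt_ex_pow {E : ℕ} (hE : 0 < E) (L : ℕ) : L < (2 * ex E L) ^ E := by
  unfold ex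
  rw [← pow_succ', ← pow_mul]
  refine (Nat.lt_pow_succ_log_self (b := 2) (by norm_num) L).trans_le
    (Nat.pow_le_pow_right (by norm_num) ?_)
  have := Nat.lt_div_mul_add (a := Nat.log 2 L) hE
  rw [add_mul]; omega

theorem so_ex {E : ℕ} (hE : 0 < E) : SO (ex E) (1 / E) := by
  refine SO.of_bound 1 ?_
  filter_upwards [eventually_ge_atTop 1] with L hL
  have h1 : ((ex E L : ℝ)) ^ E ≤ L := by exact_mod_cast ex_pow_le E (by omega)
  have h2 := Real.rpow_le_rpow (by positivity) h1 (show (0 : ℝ) ≤ 1 / E by positivity)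
  rw [← Real.rpow_natCast, ← Real.rpow_mul (Nat.cast_nonneg _),
    mul_one_div_cancel (by exact_mod_cast hE.ne'), Real.rpow_one] at h2
  simpa using h2

theorem lb_ex {E : ℕ} (hE : 0 < E) : LB (ex E) (1 / E) := by
  refine LB.of_bound 2 (Eventually.of_forall fun L => ?_)
  have h1 : (L : ℝ) ≤ (2 * (ex E L : ℝ)) ^ E := by exact_mod_cast (lt_ex_pow hE L).le
  have h2 := Real.rpow_le_rpow (Nat.cast_nonneg _) h1 (show (0 : ℝ) ≤ 1 / E by positivity)
  rwa [← Real.rpow_natCast, ← Real.rpow_mul (by positivity),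
    mul_one_div_cancel (by exact_mod_cast hE.ne'), Real.rpow_one] at h2

theorem so_ex_pow {E : ℕ} (hE : 0 < E) (D : ℕ) : SO (fun L => ex E L ^ D) (D / E) := by
  simpa [div_eq_mul_inv] using (so_ex hE).pow D

theorem lb_ex_pow {E : ℕ} (hE : 0 < E) (D : ℕ) : LB (fun L => ex E L ^ D) (D / E) := by
  simpa [div_eq_mul_inv] using (lb_ex hE).pow D

end Crest.Agent.X326
end

-- ▼ part X326/Top/Bridge
section

/-!
# Bridge from soft-O cost bounds to the time bound of S0503 (row 326)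

`tb N = ⌈N * (log₂ N) ^ (1 - 2^(-182))⌉` is the function in the statement.  A cost function `T`
of the operand length `n` with `T n ≤ n * F (size n)` eventually, `SO F a`, `a < 1 - 2^(-182)`, is
bounded by `c * tb (2 n) + c` for all `n`.
-/

set_option autoImplicit false

namespace Crest.Agent.X326

open Filter

/-- the time bound of the statement, without the constant -/
noncomputable def tb (N : ℕ) : ℕ := ⌈(N : ℝ) * (Real.logb 2 N) ^ (1 - 1 / (2 : ℝ) ^ 182)⌉₊

theorem tendsto_size_atTop : Tendsto Nat.size atTop atTop := by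
  refine tendsto_atTop.2 fun b => ?_
  filter_upwards [eventually_ge_atTop (2 ^ b)] with n hn
  exact (Nat.lt_size.2 hn).le

theorem size_le_logb {n : ℕ} (hn : 0 < n) : (Nat.size n : ℝ) ≤ Real.logb 2 ((2 * n : ℕ) : ℝ) := by
  have h0 := Nat.size_pos.2 hn
  have h1 : 2 ^ (Nat.size n - 1) ≤ n := Nat.lt_size.1 (by omega)
  have h2 : 2 ^ Nat.size n ≤ 2 * n := by
    have : 2 ^ Nat.size n = 2 * 2 ^ (Nat.size n - 1) := by
      rw [← pow_succ']; congr 1; omega
    omega
  rw [Real.le_logb_iff_rpow_le (by norm_num) (by positivity), Real.rpow_natCast]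
  exact_mod_cast h2

theorem mul_size_rpow_le_tb {n : ℕ} (hn : 0 < n) :
    (n : ℝ) * (Nat.size n : ℝ) ^ (1 - 1 / (2 : ℝ) ^ 182) ≤ tb (2 * n) := by
  refine le_trans ?_ (Nat.le_ceil _)
  have h1 : (Nat.size n : ℝ) ^ (1 - 1 / (2 : ℝ) ^ 182) ≤
      (Real.logb 2 ((2 * n : ℕ) : ℝ)) ^ (1 - 1 / (2 : ℝ) ^ 182) :=
    Real.rpow_le_rpow (Nat.cast_nonneg _) (size_le_logb hn) (by norm_num)
  refine mul_le_mul ?_ h1 (by positivity) (Nat.cast_nonneg _)
  push_cast
  linarith [Nat.cast_nonneg (α := ℝ) n]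

theorem le_tb (n : ℕ) : n ≤ tb (2 * n) := by
  rcases Nat.eq_zero_or_pos n with rfl | hn
  · simp
  have h1 := mul_size_rpow_le_tb hn
  have h2 : (1 : ℝ) ≤ (Nat.size n : ℝ) ^ (1 - 1 / (2 : ℝ) ^ 182) :=
    Real.one_le_rpow (by exact_mod_cast Nat.size_pos.2 hn) (by norm_num)
  have h3 : (n : ℝ) ≤ tb (2 * n) := le_trans (le_mul_of_one_le_right (Nat.cast_nonneg _) h2) h1
  exact_mod_cast h3

/-- an eventual bound `T n ≤ c * g n` becomes a global bound `T n ≤ c * g n + c` -/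
theorem global_of_eventually {T g : ℕ → ℕ} {c : ℕ} (h : ∀ᶠ n in atTop, T n ≤ c * g n) :
    ∃ c' : ℕ, ∀ n, T n ≤ c' * g n + c' := by
  obtain ⟨n0, h⟩ := eventually_atTop.1 h
  refine ⟨c + ∑ i ∈ Finset.range n0, T i, fun n => ?_⟩
  rcases Nat.lt_or_ge n n0 with hn | hn
  · have := Finset.single_le_sum (f := T) (fun i _ => Nat.zero_le _) (Finset.mem_range.2 hn)
    omega
  · have := h n hn
    rw [add_mul]; omega

theorem SO.eventually_le_tb {F : ℕ → ℕ} {a : ℝ} (hF : SO F a) (ha : a < 1 - 1 / (2 : ℝ) ^ 182) :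
    ∃ c : ℕ, ∀ᶠ n in atTop, n * F (Nat.size n) ≤ c * tb (2 * n) := by
  obtain ⟨C, hC⟩ := hF.bound ha
  refine ⟨C, ?_⟩
  filter_upwards [tendsto_size_atTop.eventually hC, eventually_gt_atTop 0] with n h1 h2
  have h3 := mul_size_rpow_le_tb h2
  have h4 : ((n * F (Nat.size n) : ℕ) : ℝ) ≤ (C * tb (2 * n) : ℕ) := by
    push_cast
    calc (n : ℝ) * F (Nat.size n) ≤ n * (C * (Nat.size n : ℝ) ^ (1 - 1 / (2 : ℝ) ^ 182)) :=
          mul_le_mul_of_nonneg_left h1 (Nat.cast_nonneg _)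
      _ = C * (n * (Nat.size n : ℝ) ^ (1 - 1 / (2 : ℝ) ^ 182)) := by ring
      _ ≤ _ := mul_le_mul_of_nonneg_left h3 (Nat.cast_nonneg _)
  exact_mod_cast h4

/-- **Bridge.** A cost `T n ≤ n * F (size n)` (for large `n`) with `SO F a`, `a < 1 - 2^(-182)`,
is within the bound of the statement for every `n`. -/
theorem bridge {T F : ℕ → ℕ} {a : ℝ} (hF : SO F a) (ha : a < 1 - 1 / (2 : ℝ) ^ 182)
    (hT : ∀ᶠ n in atTop, T n ≤ n * F (Nat.size n)) :
    ∃ c : ℕ, ∀ n, T n ≤ c * tb (2 * n) + c := by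
  obtain ⟨c, hc⟩ := hF.eventually_le_tb ha
  refine global_of_eventually (c := c) ?_
  filter_upwards [hT, hc] with n h1 h2
  exact h1.trans h2

/-- the same for a cost given as a function of `L = size n` with the volume `2 ^ L` -/
theorem bridge_two_pow {T F : ℕ → ℕ} {a : ℝ} (hF : SO F a) (ha : a < 1 - 1 / (2 : ℝ) ^ 182)
    (hT : ∀ᶠ L in atTop, T L ≤ 2 ^ L * F L) :
    ∃ c : ℕ, ∀ n, T (Nat.size n) ≤ c * tb (2 * n) + c := by
  refine bridge (hF.const_mul 2) ha ?_
  filter_upwards [tendsto_size_atTop.eventually hT, eventually_gt_atTop 0] with n h1 hn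
  have h0 := Nat.size_pos.2 hn
  have h2 : 2 ^ (Nat.size n - 1) ≤ n := Nat.lt_size.1 (by omega)
  have h3 : 2 ^ Nat.size n = 2 * 2 ^ (Nat.size n - 1) := by
    rw [← pow_succ']; congr 1; omega
  calc T (Nat.size n) ≤ 2 ^ Nat.size n * F (Nat.size n) := h1
    _ ≤ (2 * n) * F (Nat.size n) := Nat.mul_le_mul_right _ (by omega)
    _ = _ := by ring

/-- `SV T a`: the cost `T L` is the volume `2 ^ L` times a factor of exponent `a`. -/
def SV (T : ℕ → ℕ) (a : ℝ) : Prop := ∃ F : ℕ → ℕ, SO F a ∧ ∀ᶠ L in atTop, T L ≤ 2 ^ L * F L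

namespace SV

variable {T S F : ℕ → ℕ} {a b : ℝ}

theorem of_le (h : ∀ᶠ L in atTop, T L ≤ S L) (hS : SV S a) : SV T a := by
  obtain ⟨F, hF, h'⟩ := hS
  exact ⟨F, hF, by filter_upwards [h, h'] with L h1 h2 using h1.trans h2⟩

theorem of_le' (h : ∀ L, T L ≤ S L) (hS : SV S a) : SV T a := of_le (Eventually.of_forall h) hS

theorem mono (hT : SV T a) (hab : a ≤ b) : SV T b := by
  obtain ⟨F, hF, h⟩ := hT
  exact ⟨F, hF.mono hab, h⟩

theorem two_pow : SV (fun L => 2 ^ L) 0 :=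
  ⟨fun _ => 1, SO.const 1, Eventually.of_forall fun L => by simp⟩

theorem of_le_two_pow (h : ∀ᶠ L in atTop, T L ≤ 2 ^ L) : SV T 0 := of_le h two_pow

/-- anything polynomial in `L` -/
theorem of_so (hF : SO F a) : SV F 0 :=
  of_le_two_pow (hF.eventually_le_two_pow_lb LB.id one_pos)

theorem const (c : ℕ) : SV (fun _ => c) 0 := of_so (SO.const c)

theorem add (hT : SV T a) (hS : SV S a) : SV (fun L => T L + S L) a := by
  obtain ⟨F, hF, h⟩ := hT
  obtain ⟨G, hG, h'⟩ := hS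
  refine ⟨_, hF.add hG, ?_⟩
  filter_upwards [h, h'] with L h1 h2
  rw [mul_add]; omega

theorem mul_so (hT : SV T a) (hF : SO F b) : SV (fun L => T L * F L) (a + b) := by
  obtain ⟨G, hG, h⟩ := hT
  refine ⟨_, hG.mul hF, ?_⟩
  filter_upwards [h] with L h1
  rw [← mul_assoc]
  exact Nat.mul_le_mul_right _ h1

theorem so_mul (hF : SO F b) (hT : SV T a) : SV (fun L => F L * T L) (b + a) :=
  (of_le' (fun L => by rw [mul_comm]) (hT.mul_so hF)).mono (by rw [add_comm])

theorem const_mul (c : ℕ) (hT : SV T a) : SV (fun L => c * T L) a :=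
  (so_mul (SO.const c) hT).mono (by simp)


theorem add_so (hT : SV T a) (ha : 0 ≤ a) (hF : SO F b) : SV (fun L => T L + F L) a :=
  hT.add ((of_so hF).mono ha)

theorem add_const (hT : SV T a) (ha : 0 ≤ a) (c : ℕ) : SV (fun L => T L + c) a :=
  hT.add_so ha (SO.const c)

/-- the bit length of such a cost is `O(L)` -/
theorem size (hT : SV T a) : SO (fun L => Nat.size (T L)) 1 := by
  obtain ⟨F, hF, h⟩ := hT
  have h1 : SO (fun L => Nat.size (2 ^ L * F L)) 1 :=
    SO.size_mul (SO.size_of_le_two_pow (g := fun L => L) (Eventually.of_forall fun _ => le_rfl)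
      SO.id zero_le_one) (hF.size.mono zero_le_one)
  refine SO.of_le ?_ h1
  filter_upwards [h] with L h2 using Nat.size_le_size h2

theorem bridge (hT : SV T a) (ha : a < 1 - 1 / (2 : ℝ) ^ 182) :
    ∃ c : ℕ, ∀ n, T (Nat.size n) ≤ c * tb (2 * n) + c := by
  obtain ⟨F, hF, h⟩ := hT
  exact bridge_two_pow hF ha h

end SV

end Crest.Agent.X326
end

-- ▼ part X326/Top/Par

/-!
# The parameters of the fast multiplier (row 326)

All parameters are explicit functions of `L = size n` (`n` = operand length in bits).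

* `ff L = (2^18) ^ jj L` axes handled by part B, `dd = ff + 3` axes, `ee = ff + 1` (`dd = ee + 2`);
* `tt = 2 ^ kk` axis length, `rr = 2 ^ rho` record length, `tt ^ dd * rr = 2 ^ Lp`;
* digits have `L` bits, a record holds `rr / 2` digits;
* filter bank: `nu`, `gam`, `QQ = gam * (nu - 1)`, `nn`, `dl`, `BB = 2 ^ beta`, precision `pp`;
* `NN = tt * QQ ^ (ee + 1)` records in the one-dimensional cyclic convolution.
-/

set_option autoImplicit false

namespace Crest.Agent.X326.Par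

open Filter

/-- recursion depth of part B -/
def jj (L : ℕ) : ℕ := Nat.log 2 L / 576
/-- number of axes handled by part B -/
def ff (L : ℕ) : ℕ := (2 ^ 18) ^ jj L
/-- number of axes -/
def dd (L : ℕ) : ℕ := ff L + 3
/-- `ee + 1` filter bank levels -/
def ee (L : ℕ) : ℕ := ff L + 1
/-- `2 ^ Lp` coefficients in the grid -/
def Lp (L : ℕ) : ℕ := L + 3 - Nat.log 2 L
/-- bits per axis -/
def kk (L : ℕ) : ℕ := Lp L / (dd L + 1)
/-- axis length -/
def tt (L : ℕ) : ℕ := 2 ^ kk L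
/-- logarithm of the record length -/
def rho (L : ℕ) : ℕ := Lp L - dd L * kk L
/-- record length -/
def rr (L : ℕ) : ℕ := 2 ^ rho L
/-- oversampling parameter -/
def nu (L : ℕ) : ℕ := 4 * ff L
/-- `tt = gam * nu` -/
def gam (L : ℕ) : ℕ := tt L / nu L
/-- decimation step -/
def QQ (L : ℕ) : ℕ := gam L * (nu L - 1)
/-- fixed point precision of the taps -/
def pp (L : ℕ) : ℕ := 32 * L
/-- order of the half-band filter -/
def nn (L : ℕ) : ℕ := 4 * nu L ^ 2 * pp L
/-- half-length of the analysis filter -/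
def dl (L : ℕ) : ℕ := (2 * nn L + 1) * tt L
/-- error constant of the integer taps -/
def cc (L : ℕ) : ℕ := kk L * 4 ^ kk L + (2 * dl L + 1) * (2 * 2 ^ kk L + 1) + 1
/-- logarithm of the block length of the banded products -/
def beta (L : ℕ) : ℕ := Nat.size (nu L * (8 * nn L + 5))
/-- block length of the banded products -/
def BB (L : ℕ) : ℕ := 2 ^ beta L
/-- number of records of the one-dimensional convolution -/
def NN (L : ℕ) : ℕ := tt L * QQ L ^ (ee L + 1)
/-- bound for the `ℓ¹` norm of the digit arrays -/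
def AA (L : ℕ) : ℕ := NN L * rr L * 2 ^ L
/-- bits of the modulus -/
def PP (L : ℕ) : ℕ := 128 * L

/-! ### identities valid for every `L` -/

theorem dd_eq (L : ℕ) : dd L = ee L + 2 := rfl

theorem ff_eq_ex (L : ℕ) : ff L = ex 576 L ^ 18 := by
  unfold ff ex jj
  rw [← pow_mul, ← pow_mul, mul_comm]

theorem ff_eq_two_pow (L : ℕ) : ff L = 2 ^ (18 * jj L) := by
  unfold ff; rw [← pow_mul]

theorem ff_pos (L : ℕ) : 0 < ff L := by unfold ff; positivity
theorem tt_pos (L : ℕ) : 0 < tt L := by unfold tt; positivity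
theorem rr_pos (L : ℕ) : 0 < rr L := by unfold rr; positivity
theorem nu_pos (L : ℕ) : 0 < nu L := by have := ff_pos L; unfold nu; omega
theorem four_le_nu (L : ℕ) : 4 ≤ nu L := by have := ff_pos L; unfold nu; omega

theorem nu_eq_two_pow (L : ℕ) : nu L = 2 ^ (18 * jj L + 2) := by
  unfold nu; rw [ff_eq_two_pow, pow_add]; ring

theorem succ_dd_mul_kk_le (L : ℕ) : (dd L + 1) * kk L ≤ Lp L := Nat.mul_div_le _ _

theorem dd_mul_kk_add_rho (L : ℕ) : dd L * kk L + rho L = Lp L := by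
  have := succ_dd_mul_kk_le L
  unfold rho
  rw [add_mul] at this
  omega

theorem kk_le_rho (L : ℕ) : kk L ≤ rho L := by
  have := succ_dd_mul_kk_le L
  have h := dd_mul_kk_add_rho L
  rw [add_mul] at this
  omega

theorem rho_le (L : ℕ) : rho L ≤ kk L + dd L := by
  have h := dd_mul_kk_add_rho L
  have h2 : Lp L < kk L * (dd L + 1) + (dd L + 1) := Nat.lt_div_mul_add (Nat.succ_pos _)
  rw [mul_add, mul_comm (kk L)] at h2
  omega

theorem tt_pow_mul_rr (L : ℕ) : tt L ^ dd L * rr L = 2 ^ Lp L := by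
  unfold tt rr
  rw [← pow_mul, ← pow_add, mul_comm (kk L), dd_mul_kk_add_rho]

theorem tt_dvd_rr (L : ℕ) : tt L ∣ rr L := pow_dvd_pow 2 (kk_le_rho L)


theorem QQ_le_tt (L : ℕ) : QQ L ≤ tt L :=
  (Nat.mul_le_mul_left _ (Nat.sub_le _ _)).trans (Nat.div_mul_le_self _ _)

theorem NN_le (L : ℕ) : NN L ≤ tt L ^ dd L := by
  unfold NN
  rw [dd_eq, pow_succ' (tt L) (ee L + 1)]
  exact Nat.mul_le_mul_left _ (Nat.pow_le_pow_left (QQ_le_tt L) _)

theorem nu_mul_lt_BB (L : ℕ) : nu L * (8 * nn L + 5) < BB L := Nat.lt_size_self _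

theorem Lp_le {L : ℕ} (hL : 8 ≤ L) : Lp L ≤ L := by
  have : 3 ≤ Nat.log 2 L := (Nat.le_log_iff_pow_le (by norm_num) (by omega)).2 (by omega)
  unfold Lp; omega

theorem log_add_Lp (L : ℕ) : Nat.log 2 L + Lp L = L + 3 := by
  have : Nat.log 2 L ≤ L := Nat.log_le_self 2 L
  unfold Lp; omega

/-- the volume: `2 ^ Lp` coefficients of `O(L)` bits -/
theorem two_pow_Lp_mul_le (L : ℕ) : 2 ^ Lp L * L ≤ 16 * 2 ^ L := by
  have h1 : L ≤ 2 ^ (Nat.log 2 L + 1) := (Nat.lt_pow_succ_log_self (by norm_num) L).le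
  calc 2 ^ Lp L * L ≤ 2 ^ Lp L * 2 ^ (Nat.log 2 L + 1) := Nat.mul_le_mul_left _ h1
    _ = 2 ^ (Nat.log 2 L + Lp L + 1) := by rw [← pow_add]; congr 1; ring
    _ = 16 * 2 ^ L := by rw [log_add_Lp]; ring

theorem le_two_pow_Lp_mul {L : ℕ} (hL : L ≠ 0) : 8 * 2 ^ L ≤ 2 ^ Lp L * L := by
  have h1 : 2 ^ Nat.log 2 L ≤ L := Nat.pow_log_le_self 2 hL
  calc 8 * 2 ^ L = 2 ^ (Nat.log 2 L + Lp L) := by rw [log_add_Lp]; ring
    _ = 2 ^ Lp L * 2 ^ Nat.log 2 L := by rw [pow_add, mul_comm]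
    _ ≤ _ := Nat.mul_le_mul_left _ h1

/-! ### orders of magnitude -/

theorem so_ff : SO ff (1 / 32) := by
  have := so_ex_pow (E := 576) (by norm_num) 18
  refine (SO.of_le' (fun L => (ff_eq_ex L).le) this).mono (by norm_num)

theorem lb_ff : LB ff (1 / 32) := by
  have := lb_ex_pow (E := 576) (by norm_num) 18
  refine (LB.of_le' (fun L => (ff_eq_ex L).ge) this).mono (by norm_num)

theorem so_jj : SO jj 0 := (SO.id.log 2).div _
theorem so_dd : SO dd (1 / 32) := so_ff.add_const (by norm_num) 3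
theorem lb_dd : LB dd (1 / 32) := lb_ff.add_right _
theorem so_ee : SO ee (1 / 32) := so_ff.add_const (by norm_num) 1
theorem so_nu : SO nu (1 / 32) := so_ff.const_mul 4
theorem so_Lp : SO Lp 1 := (SO.id.add_const zero_le_one 3).sub _
theorem lb_Lp : LB Lp 1 := (LB.id.add_right fun _ => 3).sub (SO.id.log 2) one_pos

theorem so_kk : SO kk (31 / 32) :=
  (so_Lp.div_lb (lb_dd.add_right fun _ => 1)).mono (by norm_num)

theorem lb_kk : LB kk (31 / 32) :=
  (lb_Lp.div (so_dd.add_const (by norm_num) 1) (by norm_num)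
    (Eventually.of_forall fun _ => Nat.succ_pos _)).mono (by norm_num)

theorem so_rho : SO rho (31 / 32) :=
  SO.of_le' rho_le (so_kk.add (so_dd.mono (by norm_num)))

theorem lb_rho : LB rho (31 / 32) := LB.of_le' kk_le_rho lb_kk

theorem so_pp : SO pp 1 := SO.id.const_mul 32
theorem so_PP : SO PP 1 := SO.id.const_mul 128
theorem lb_PP : LB PP 1 := LB.id.const_mul (by norm_num)

theorem so_nn : SO nn (17 / 16) :=
  (((so_nu.pow 2).const_mul 4).mul so_pp).mono (by norm_num)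

theorem so_BB : SO BB (35 / 32) :=
  ((so_nu.mul ((so_nn.const_mul 8).add_const (by norm_num) 5)).two_pow_size
    (by norm_num)).mono (by norm_num)

theorem so_beta : SO beta 0 := (so_nu.mul ((so_nn.const_mul 8).add_const (by norm_num) 5)).size

theorem so_size_tt : SO (fun L => Nat.size (tt L)) (31 / 32) :=
  SO.size_of_le_two_pow (g := kk) (Eventually.of_forall fun _ => le_rfl) so_kk (by norm_num)

theorem so_size_rr : SO (fun L => Nat.size (rr L)) (31 / 32) :=
  SO.size_of_le_two_pow (g := rho) (Eventually.of_forall fun _ => le_rfl) so_rho (by norm_num)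

/-! ### absorption principles -/

/-- every polynomial quantity is eventually below the axis length -/
theorem _root_.Crest.Agent.X326.SO.le_tt {f : ℕ → ℕ} {a : ℝ} (hf : SO f a) :
    ∀ᶠ L in atTop, f L ≤ tt L := hf.eventually_le_two_pow_lb lb_kk (by norm_num)

theorem _root_.Crest.Agent.X326.SO.lt_tt {f : ℕ → ℕ} {a : ℝ} (hf : SO f a) :
    ∀ᶠ L in atTop, f L < tt L := hf.eventually_lt_two_pow_lb lb_kk (by norm_num)


/-- every quantity with `o(L)` bits is eventually below `2 ^ L` -/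
theorem _root_.Crest.Agent.X326.SO.le_two_pow_of_size {f : ℕ → ℕ} {a : ℝ}
    (hf : SO (fun L => Nat.size (f L)) a) (ha : a < 1) : ∀ᶠ L in atTop, f L ≤ 2 ^ L := by
  filter_upwards [hf.eventually_le_self ha] with L h
  exact (Nat.size_le.1 h).le

theorem _root_.Crest.Agent.X326.SO.size_pow {f : ℕ → ℕ} {a : ℝ}
    (hf : SO (fun L => Nat.size (f L)) a) (ha : 0 ≤ a) (c : ℕ) :
    SO (fun L => Nat.size (f L ^ c)) a := by
  induction c with
  | zero => simpa using (SO.const 1).mono ha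
  | succ c ih => simpa only [pow_succ] using ih.size_mul hf

theorem _root_.Crest.Agent.X326.SO.size_add {f g : ℕ → ℕ} {a : ℝ}
    (hf : SO (fun L => Nat.size (f L)) a) (hg : SO (fun L => Nat.size (g L)) a) (ha : 0 ≤ a) :
    SO (fun L => Nat.size (f L + g L)) a := by
  refine SO.of_le' (fun L => ?_) ((hf.add hg).add_const ha 1)
  refine Nat.size_le.2 ?_
  have h1 := Nat.lt_size_self (f L)
  have h2 := Nat.lt_size_self (g L)
  have h3 : 2 ^ Nat.size (f L) ≤ 2 ^ (Nat.size (f L) + Nat.size (g L)) :=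
    Nat.pow_le_pow_right (by norm_num) (by omega)
  have h4 : 2 ^ Nat.size (g L) ≤ 2 ^ (Nat.size (f L) + Nat.size (g L)) :=
    Nat.pow_le_pow_right (by norm_num) (by omega)
  rw [pow_succ]; omega



/-- the volume unit: number of coefficients times `L` -/
theorem sv_vol : SV (fun L => 2 ^ Lp L * L) 0 :=
  SV.of_le' two_pow_Lp_mul_le (SV.two_pow.const_mul 16)

/-- the number of coefficients has exponent `-1` -/
theorem sv_coeffs_mul {f : ℕ → ℕ} {a : ℝ} (hf : SO f (a + 1)) (ha : 0 ≤ a) :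
    SV (fun L => 2 ^ Lp L * f L) a := by
  have h1 : SO (fun L => f L / L + 1) a := by
    have := (hf.div_lb LB.id)
    rw [add_sub_cancel_right] at this
    exact this.add_const ha 1
  refine SV.of_le ?_ ((sv_vol.mul_so h1).mono (by simp))
  filter_upwards [eventually_gt_atTop 0] with L hL
  rw [mul_assoc]
  refine Nat.mul_le_mul_left _ ?_
  have := Nat.lt_div_mul_add (a := f L) hL
  nlinarith

/-- volume `tt ^ dd * rr * (O(L) bits)` times a factor -/
theorem sv_grid_mul {f : ℕ → ℕ} {a : ℝ} (hf : SO f (a + 1)) (ha : 0 ≤ a) :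
    SV (fun L => tt L ^ dd L * rr L * f L) a := by
  simpa only [tt_pow_mul_rr] using sv_coeffs_mul hf ha


/-! ### eventual side conditions -/

theorem ev_ff_ge (c : ℕ) : ∀ᶠ L in atTop, c ≤ ff L := lb_ff.eventually_ge (by norm_num) c

theorem ev_kk_ge (c : ℕ) : ∀ᶠ L in atTop, c ≤ kk L := lb_kk.eventually_ge (by norm_num) c

theorem pow_dvd_tt_of_le {a L : ℕ} (h : 2 ^ a ≤ tt L) : 2 ^ a ∣ tt L :=
  pow_dvd_pow 2 ((Nat.pow_le_pow_iff_right (by norm_num)).1 h)


theorem ev_two_nu_dvd : ∀ᶠ L in atTop, 2 * nu L ∣ tt L := by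
  filter_upwards [(so_nu.const_mul 2).le_tt] with L h
  rw [nu_eq_two_pow, ← pow_succ'] at h ⊢
  exact pow_dvd_tt_of_le h

theorem ev_gam_mul_nu : ∀ᶠ L in atTop, gam L * nu L = tt L := by
  filter_upwards [ev_two_nu_dvd] with L h
  exact Nat.div_mul_cancel (Dvd.dvd.trans (Dvd.intro_left 2 rfl) h)

theorem ev_two_dvd_gam : ∀ᶠ L in atTop, 2 ∣ gam L := by
  filter_upwards [ev_two_nu_dvd] with L h
  obtain ⟨c, hc⟩ := h
  refine ⟨c, ?_⟩
  unfold gam
  rw [hc, show 2 * nu L * c = nu L * (2 * c) by ring, Nat.mul_div_cancel_left _ (nu_pos L)]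

theorem ev_gam_pos : ∀ᶠ L in atTop, 0 < gam L := by
  filter_upwards [ev_gam_mul_nu] with L h
  have := tt_pos L
  rw [← h] at this
  exact Nat.pos_of_mul_pos_right this

theorem ev_two_mul_half_QQ : ∀ᶠ L in atTop, 2 * (QQ L / 2) = QQ L := by
  filter_upwards [ev_two_dvd_gam] with L h
  exact Nat.mul_div_cancel' (Dvd.dvd.mul_right h _)

theorem ev_QQ_mul_nu : ∀ᶠ L in atTop, QQ L * nu L = tt L * (nu L - 1) := by
  filter_upwards [ev_gam_mul_nu] with L h
  rw [← h]; unfold QQ; ring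

theorem ev_tt_le_two_QQ : ∀ᶠ L in atTop, tt L ≤ 2 * QQ L := by
  filter_upwards [ev_gam_mul_nu] with L h
  have := four_le_nu L
  rw [← h]; unfold QQ
  rw [← mul_assoc, mul_comm 2, mul_assoc]
  exact Nat.mul_le_mul_left _ (by omega)

theorem ev_QQ_pos : ∀ᶠ L in atTop, 0 < QQ L := by
  filter_upwards [ev_tt_le_two_QQ] with L h
  have := tt_pos L
  omega

/-- every polynomial quantity is eventually below `QQ` -/
theorem _root_.Crest.Agent.X326.SO.lt_QQ {f : ℕ → ℕ} {a : ℝ} (hf : SO f a) :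
    ∀ᶠ L in atTop, f L < QQ L := by
  filter_upwards [(hf.const_mul 2).lt_tt, ev_tt_le_two_QQ] with L h1 h2
  omega

theorem ev_BB_dvd : ∀ᶠ L in atTop, BB L ∣ tt L := by
  filter_upwards [so_BB.le_tt] with L h
  exact pow_dvd_tt_of_le h

theorem ev_dl_BB : ∀ᶠ L in atTop, 4 * dl L + tt L ≤ gam L * BB L := by
  filter_upwards [ev_gam_mul_nu] with L h
  have h1 := (nu_mul_lt_BB L).le
  unfold dl
  rw [← h]
  calc 4 * ((2 * nn L + 1) * (gam L * nu L)) + gam L * nu L
      = gam L * (nu L * (8 * nn L + 5)) := by ring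
    _ ≤ _ := Nat.mul_le_mul_left _ h1

theorem ev_six_dl_lt : ∀ᶠ L in atTop, 6 * dl L < tt L * QQ L := by
  filter_upwards [(((so_nn.const_mul 2).add_const (by norm_num) 1).const_mul 6).lt_QQ] with L h
  unfold dl
  rw [← mul_assoc, mul_comm (tt L)]
  exact Nat.mul_lt_mul_of_pos_right h (tt_pos L)

/-- Bernoulli: `ν ^ m ≤ 2 (ν - 1) ^ m` when `2 m ≤ ν` -/
theorem pow_le_two_mul_pred_pow {ν m : ℕ} (h : 2 * m ≤ ν) : ν ^ m ≤ 2 * (ν - 1) ^ m := by
  rcases Nat.eq_zero_or_pos ν with rfl | hν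
  · have : m = 0 := by omega
    subst this; simp
  have hν' : (0 : ℝ) < ν := by exact_mod_cast hν
  have h1 : (1 : ℝ) + (m : ℝ) * (-(1 / (ν : ℝ))) ≤ (1 + -(1 / (ν : ℝ))) ^ m := by
    refine one_add_mul_le_pow ?_ m
    have : (1 : ℝ) / ν ≤ 1 := by rw [div_le_one hν']; exact_mod_cast hν
    linarith
  have h2 : (m : ℝ) * (1 / (ν : ℝ)) ≤ 1 / 2 := by
    rw [mul_one_div, div_le_div_iff₀ hν' (by norm_num)]
    have : ((2 * m : ℕ) : ℝ) ≤ ν := by exact_mod_cast h
    push_cast at this; linarith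
  have h3 : (1 + -(1 / (ν : ℝ))) ^ m * (ν : ℝ) ^ m = ((ν - 1 : ℕ) : ℝ) ^ m := by
    rw [← mul_pow, Nat.cast_sub hν]
    congr 1
    field_simp
    push_cast; ring
  have h4 : (ν : ℝ) ^ m ≤ 2 * ((ν - 1 : ℕ) : ℝ) ^ m := by
    rw [← h3]
    have : (0 : ℝ) < (ν : ℝ) ^ m := by positivity
    nlinarith
  exact_mod_cast h4

theorem ev_tt_pow_le_two_NN : ∀ᶠ L in atTop, tt L ^ dd L ≤ 2 * NN L := by
  filter_upwards [ev_gam_mul_nu, ev_ff_ge 2] with L h hf
  have h1 : nu L ^ (ee L + 1) ≤ 2 * (nu L - 1) ^ (ee L + 1) :=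
    pow_le_two_mul_pred_pow (by unfold nu ee; omega)
  have h2 : tt L ^ (ee L + 1) ≤ 2 * QQ L ^ (ee L + 1) := by
    rw [← h]; unfold QQ
    rw [mul_pow, mul_pow, ← mul_assoc, mul_comm 2, mul_assoc]
    exact Nat.mul_le_mul_left _ h1
  unfold NN
  rw [dd_eq, pow_succ' (tt L) (ee L + 1), ← mul_assoc, mul_comm 2, mul_assoc]
  exact Nat.mul_le_mul_left _ h2

theorem ev_two_dvd_tt : ∀ᶠ L in atTop, 2 ∣ tt L := by
  filter_upwards [ev_two_nu_dvd] with L h
  exact Dvd.dvd.trans (Dvd.intro _ rfl) h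

theorem ev_two_dvd_rr : ∀ᶠ L in atTop, 2 ∣ rr L := by
  filter_upwards [ev_two_dvd_tt] with L h
  exact h.trans (tt_dvd_rr L)

theorem ev_two_dvd_NN : ∀ᶠ L in atTop, 2 ∣ NN L := by
  filter_upwards [ev_two_dvd_tt] with L h
  exact Dvd.dvd.mul_right h _

/-- capacity: half of the records hold `2 ^ L` bits -/
theorem ev_capacity : ∀ᶠ L in atTop, 2 ^ L ≤ L * (rr L / 2) * (NN L / 2) := by
  filter_upwards [ev_tt_pow_le_two_NN, ev_two_dvd_rr, ev_two_dvd_NN, eventually_gt_atTop 0]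
    with L h1 h2 h3 hL
  obtain ⟨r, hr⟩ := h2
  obtain ⟨N, hN⟩ := h3
  have h4 := le_two_pow_Lp_mul hL.ne'
  rw [← tt_pow_mul_rr] at h4
  have h5 : tt L ^ dd L * rr L * L ≤ 2 * NN L * rr L * L :=
    Nat.mul_le_mul_right _ (Nat.mul_le_mul_right _ h1)
  rw [hr, hN] at *
  rw [Nat.mul_div_cancel_left _ (by norm_num), Nat.mul_div_cancel_left _ (by norm_num)]
  nlinarith

theorem ev_grid_le : ∀ᶠ L in atTop, tt L ^ dd L * rr L ≤ 2 ^ L := by
  filter_upwards [eventually_ge_atTop 8] with L h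
  rw [tt_pow_mul_rr]
  exact Nat.pow_le_pow_right (by norm_num) (Lp_le h)

theorem ev_tt_pow_le : ∀ᶠ L in atTop, tt L ^ dd L ≤ 2 ^ L := by
  filter_upwards [ev_grid_le] with L h
  exact (Nat.le_mul_of_pos_right _ (rr_pos L)).trans h

theorem ev_NN_mul_rr_le : ∀ᶠ L in atTop, NN L * rr L ≤ 2 ^ L := by
  filter_upwards [ev_grid_le] with L h
  exact (Nat.mul_le_mul_right _ (NN_le L)).trans h

end Crest.Agent.X326.Par
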