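import Crest.Agent.X326.FB.Defs

/-!
# Row 326, top level: digits and records

A number is cut into `b`-bit digits; a record has `2 * h` coefficients, `h` digits followed by `h`
zeros.  The cyclic convolution of two such arrays (records multiplied modulo `y ^ (2 h) + 1`)
evaluates to the product of the two numbers.
-/

set_option autoImplicit false

namespace Crest.Agent.X326.Top

open Finset FB

/-- digit number `i` in base `2 ^ b` -/
def digit (b x i : ℕ) : ℕ := x / 2 ^ (b * i) % 2 ^ b

/-- the digit position that belongs to the flat index `z` (records of `2 * h` coefficients) -/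
def pos (h z : ℕ) : ℕ := z / (2 * h) * h + z % (2 * h)

/-- the digit array of `x` -/
def dig (b h x : ℕ) : Arr := fun z => if z % (2 * h) < h then (digit b x (pos h z) : ℤ) else 0

/-- evaluation of an array of `N` records -/
def evalA (b h N : ℕ) (c : Arr) : ℤ := ∑ z ∈ range (N * (2 * h)), c z * 2 ^ (b * pos h z)

theorem digit_lt (b x i : ℕ) : digit b x i < 2 ^ b := Nat.mod_lt _ (by positivity)

theorem digit_eq_zero {b x i : ℕ} (h : x < 2 ^ (b * i)) : digit b x i = 0 := by
  simp [digit, Nat.div_eq_of_lt h]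

theorem sum_digit (b x K : ℕ) :
    ∑ i ∈ range K, digit b x i * 2 ^ (b * i) = x % 2 ^ (b * K) := by
  induction K with
  | zero => simp [Nat.mod_one]
  | succ K ih =>
    rw [sum_range_succ, ih, mul_add, mul_one, pow_add, Nat.mod_mul, digit,
      mul_comm (2 ^ (b * K))]

theorem sum_range_mul {M : Type} [AddCommMonoid M] (f : ℕ → M) (N r : ℕ) :
    ∑ z ∈ range (N * r), f z = ∑ j ∈ range N, ∑ u ∈ range r, f (j * r + u) := by
  induction N with
  | zero => simp
  | succ N ih => rw [add_mul, one_mul, sum_range_add, ih, sum_range_succ]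

theorem pos_eq {h j u : ℕ} (hu : u < 2 * h) : pos h (j * (2 * h) + u) = j * h + u := by
  have h0 : 0 < 2 * h := by omega
  unfold pos
  rw [mul_comm j, Nat.mul_add_div h0, Nat.mul_add_mod, Nat.div_eq_of_lt hu, Nat.mod_eq_of_lt hu,
    add_zero]

theorem dig_eq {h u : ℕ} (b x j : ℕ) (hu : u < 2 * h) :
    dig b h x (j * (2 * h) + u) = if u < h then (digit b x (j * h + u) : ℤ) else 0 := by
  unfold dig
  rw [pos_eq hu, mul_comm j, Nat.mul_add_mod, Nat.mod_eq_of_lt hu]

theorem dig_nonneg (b h x z : ℕ) : 0 ≤ dig b h x z := by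
  unfold dig
  split_ifs <;> positivity

theorem dig_lt (b h x z : ℕ) : dig b h x z < 2 ^ b := by
  unfold dig
  split_ifs
  · exact_mod_cast digit_lt b x _
  · positivity


/-- Cauchy product of two sequences whose product has bounded degree -/
theorem sum_cauchy (f g : ℕ → ℤ) (B : ℤ) (r : ℕ) (h0 : ∀ v w, r ≤ v + w → f v * g w = 0) :
    ∑ u ∈ range r, (∑ v ∈ range (u + 1), f v * g (u - v)) * B ^ u =
      (∑ v ∈ range r, f v * B ^ v) * ∑ w ∈ range r, g w * B ^ w := by
  have h1 : ∀ u ∈ range r, (∑ v ∈ range (u + 1), f v * g (u - v)) * B ^ u =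
      ∑ v ∈ range (u + 1), (fun v w => f v * B ^ v * (g w * B ^ w)) v (u - v) := by
    intro u _
    rw [sum_mul]
    refine sum_congr rfl fun v hv => ?_
    have hv' : v ≤ u := Nat.lt_succ_iff.1 (mem_range.1 hv)
    have : B ^ u = B ^ v * B ^ (u - v) := by rw [← pow_add, Nat.add_sub_cancel' hv']
    simp only [this]
    ring
  rw [sum_congr rfl h1, sum_range_diag_flip r (fun v w => f v * B ^ v * (g w * B ^ w)),
    sum_mul_sum]
  refine sum_congr rfl fun v hv => ?_
  refine sum_subset (range_subset_range.2 (Nat.sub_le _ _)) fun w _ hw => ?_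
  have : f v * g w = 0 := h0 v w (by simp only [mem_range] at hw hv; omega)
  calc f v * B ^ v * (g w * B ^ w) = f v * g w * (B ^ v * B ^ w) := by ring
    _ = 0 := by rw [this, zero_mul]

/-- a wrap-free negacyclic product is the Cauchy product -/
theorem nega_eq {r : ℕ} {f g : Arr} (h0 : ∀ v w, v < r → w < r → r ≤ v + w → f v * g w = 0)
    {u : ℕ} (hu : u < r) : nega r f g u = ∑ v ∈ range (u + 1), f v * g (u - v) := by
  unfold nega
  rw [← sum_subset (range_subset_range.2 (Nat.succ_le_of_lt hu))]
  · exact sum_congr rfl fun v hv => if_pos (Nat.lt_succ_iff.1 (mem_range.1 hv))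
  · intro v hv hv'
    simp only [mem_range] at hv hv'
    rw [if_neg (by omega), h0 v _ hv (by omega) (by omega), neg_zero]

/-- value of record `j` -/
def recVal (b h : ℕ) (a : Arr) (j : ℕ) : ℤ :=
  ∑ u ∈ range (2 * h), a (j * (2 * h) + u) * (2 ^ b) ^ u

theorem evalA_eq (b h N : ℕ) (c : Arr) :
    evalA b h N c = ∑ j ∈ range N, recVal b h c j * ((2 ^ b) ^ h) ^ j := by
  unfold evalA recVal
  rw [sum_range_mul]
  refine sum_congr rfl fun j _ => ?_
  rw [sum_mul]
  refine sum_congr rfl fun u hu => ?_
  rw [pos_eq (mem_range.1 hu), pow_mul, pow_add, mul_comm j h, pow_mul]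
  ring

theorem evalA_dig {b h N x : ℕ} (hx : x < 2 ^ (b * (N * h))) : evalA b h N (dig b h x) = x := by
  have h1 := sum_digit b x (N * h)
  rw [Nat.mod_eq_of_lt hx, sum_range_mul] at h1
  conv_rhs => rw [← h1]
  rw [evalA_eq]
  push_cast
  refine sum_congr rfl fun j _ => ?_
  unfold recVal
  rw [sum_mul, ← sum_subset (range_subset_range.2 (by omega : h ≤ 2 * h))]
  · refine sum_congr rfl fun u hu => ?_
    have hu' := mem_range.1 hu
    rw [dig_eq b x j (by omega), if_pos hu', pow_mul, pow_add, mul_comm j h, pow_mul]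
    ring
  · intro u hu hu'
    simp only [mem_range] at hu hu'
    rw [dig_eq b x j hu, if_neg hu', zero_mul, zero_mul]

theorem dig_mul_dig {b h x y i j v w : ℕ} (hv : v < 2 * h) (hw : w < 2 * h)
    (hvw : 2 * h ≤ v + w) : dig b h x (i * (2 * h) + v) * dig b h y (j * (2 * h) + w) = 0 := by
  rw [dig_eq b x i hv, dig_eq b y j hw]
  split_ifs
  · omega
  · simp
  · simp
  · simp

theorem nega_dig {b h x y i j u : ℕ} (hu : u < 2 * h) :
    nega (2 * h) (blk (2 * h) i (dig b h x)) (blk (2 * h) j (dig b h y)) u =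
      ∑ v ∈ range (u + 1), dig b h x (i * (2 * h) + v) * dig b h y (j * (2 * h) + (u - v)) :=
  nega_eq (fun _ _ hv hw hvw => dig_mul_dig hv hw hvw) hu

theorem cyc_apply {N r : ℕ} (μ : Arr → Arr → Arr) (a c : Arr) (j : ℕ) {u : ℕ} (hu : u < r) :
    cyc N r μ a c (j * r + u) = ∑ i ∈ range N, μ (blk r i a) (blk r ((j + (N - i)) % N) c) u := by
  have h0 : 0 < r := by omega
  unfold cyc
  rw [mul_comm j, Nat.mul_add_div h0, Nat.mul_add_mod, Nat.div_eq_of_lt hu, Nat.mod_eq_of_lt hu,
    add_zero]

/-- the entries of the convolution of two digit arrays are natural numbers -/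
theorem cyc_dig_nonneg {h : ℕ} (hh : 0 < h) (b N x y z : ℕ) :
    0 ≤ cyc N (2 * h) (nega (2 * h)) (dig b h x) (dig b h y) z := by
  have hu : z % (2 * h) < 2 * h := Nat.mod_lt _ (by omega)
  rw [← Nat.div_add_mod' z (2 * h), cyc_apply _ _ _ _ hu]
  refine sum_nonneg fun i _ => ?_
  rw [nega_dig hu]
  exact sum_nonneg fun v _ => mul_nonneg (dig_nonneg ..) (dig_nonneg ..)

theorem cyc_dig_le {h : ℕ} (hh : 0 < h) (b N x y z : ℕ) :
    cyc N (2 * h) (nega (2 * h)) (dig b h x) (dig b h y) z ≤ (N * (2 * h) * 2 ^ (2 * b) : ℕ) := by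
  have hu : z % (2 * h) < 2 * h := Nat.mod_lt _ (by omega)
  rw [← Nat.div_add_mod' z (2 * h), cyc_apply _ _ _ _ hu]
  calc _ ≤ ∑ _i ∈ range N, ((2 * h * 2 ^ (2 * b) : ℕ) : ℤ) := by
        refine sum_le_sum fun i _ => ?_
        rw [nega_dig hu]
        calc _ ≤ ∑ _v ∈ range (z % (2 * h) + 1), (2 : ℤ) ^ b * 2 ^ b :=
              sum_le_sum fun v _ => mul_le_mul (dig_lt ..).le (dig_lt ..).le (dig_nonneg ..)
                (by positivity)
          _ = ((z % (2 * h) + 1 : ℕ) : ℤ) * 2 ^ (2 * b) := by
              rw [sum_const, card_range, nsmul_eq_mul, two_mul b, pow_add]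
          _ ≤ ((2 * h * 2 ^ (2 * b) : ℕ) : ℤ) := by
              push_cast
              refine mul_le_mul_of_nonneg_right ?_ (by positivity)
              exact_mod_cast Nat.succ_le_of_lt hu
    _ = _ := by
        rw [sum_const, card_range, nsmul_eq_mul]
        push_cast
        ring

theorem recVal_dig_eq_zero {b h x J j : ℕ} (hx : x < 2 ^ (b * (J * h))) (hj : J ≤ j) :
    recVal b h (dig b h x) j = 0 := by
  refine sum_eq_zero fun u hu => ?_
  rw [dig_eq b x j (mem_range.1 hu)]
  split_ifs
  · rw [digit_eq_zero (hx.trans_le (Nat.pow_le_pow_right (by norm_num)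
      (Nat.mul_le_mul_left b ((Nat.mul_le_mul_right h hj).trans (Nat.le_add_right _ _)))))]
    simp
  · simp

/-- **The cyclic convolution of the digit arrays evaluates to the product.** -/
theorem evalA_cyc {b h N J x y : ℕ} (hJ : 2 * J ≤ N) (hx : x < 2 ^ (b * (J * h)))
    (hy : y < 2 ^ (b * (J * h))) :
    evalA b h N (cyc N (2 * h) (nega (2 * h)) (dig b h x) (dig b h y)) = x * y := by
  have hle : 2 ^ (b * (J * h)) ≤ 2 ^ (b * (N * h)) :=
    Nat.pow_le_pow_right (by norm_num) (Nat.mul_le_mul_left b (Nat.mul_le_mul_right h (by omega)))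
  have h0 : ∀ v w, N ≤ v + w → recVal b h (dig b h x) v * recVal b h (dig b h y) w = 0 := by
    intro v w hvw
    rcases le_or_gt J v with hv | hv
    · rw [recVal_dig_eq_zero hx hv, zero_mul]
    · rw [recVal_dig_eq_zero hy (by omega), mul_zero]
  rw [← evalA_dig (hx.trans_le hle), ← evalA_dig (hy.trans_le hle)]
  conv_rhs => rw [evalA_eq, evalA_eq, ← sum_cauchy _ _ _ _ h0]
  rw [evalA_eq]
  refine sum_congr rfl fun j hj => ?_
  have hj' := mem_range.1 hj
  congr 1
  -- the value of record `j` of the convolution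
  have h1 : recVal b h (cyc N (2 * h) (nega (2 * h)) (dig b h x) (dig b h y)) j =
      ∑ i ∈ range N, recVal b h (dig b h x) i * recVal b h (dig b h y) ((j + (N - i)) % N) := by
    unfold recVal
    have h2 : ∀ u ∈ range (2 * h),
        cyc N (2 * h) (nega (2 * h)) (dig b h x) (dig b h y) (j * (2 * h) + u) * (2 ^ b) ^ u =
        ∑ i ∈ range N, (∑ v ∈ range (u + 1), dig b h x (i * (2 * h) + v) *
          dig b h y ((j + (N - i)) % N * (2 * h) + (u - v))) * (2 ^ b) ^ u := by
      intro u hu
      rw [cyc_apply _ _ _ _ (mem_range.1 hu), sum_mul]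
      exact sum_congr rfl fun i _ => by rw [nega_dig (mem_range.1 hu)]
    rw [sum_congr rfl h2, sum_comm]
    refine sum_congr rfl fun i _ => ?_
    -- truncate the two records so that the Cauchy product lemma applies
    have h3 := sum_cauchy
      (fun v => if v < 2 * h then dig b h x (i * (2 * h) + v) else 0)
      (fun w => if w < 2 * h then dig b h y ((j + (N - i)) % N * (2 * h) + w) else 0)
      (2 ^ b) (2 * h) (fun v w hvw => by
        split_ifs with hv hw
        · exact dig_mul_dig hv hw hvw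
        · simp
        · simp
        · simp)
    refine Eq.trans ?_ (h3.trans ?_)
    · refine sum_congr rfl fun u hu => ?_
      have hu' := mem_range.1 hu
      congr 1
      refine sum_congr rfl fun v hv => ?_
      have hv' := mem_range.1 hv
      rw [if_pos (by omega), if_pos (by omega)]
    · congr 1
      · exact sum_congr rfl fun v hv => by rw [if_pos (mem_range.1 hv)]
      · exact sum_congr rfl fun v hv => by rw [if_pos (mem_range.1 hv)]
  rw [h1, ← sum_subset (range_subset_range.2 (Nat.succ_le_of_lt hj'))]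
  · refine sum_congr rfl fun i hi => ?_
    have hi' := mem_range.1 hi
    have : (j + (N - i)) % N = j - i := by
      rw [show j + (N - i) = N + (j - i) by omega, Nat.add_mod_left, Nat.mod_eq_of_lt (by omega)]
    rw [this]
  · intro i hi hi'
    simp only [mem_range] at hi hi'
    rw [Nat.mod_eq_of_lt (by omega)]
    exact h0 _ _ (by omega)

end Crest.Agent.X326.Top
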